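import Mathlib
import Vale.Agent.Lib.P248.helper1.ConeAux

/-!
# P248 (helper20): assembly of the cone inequality for the volume product

The inequality `c_n * P(D) ≤ P(cone over D)` with `c_n = (n+2)^(n+2) / (n+1)^(n+3)`,
proved from the leaf statements of the pool jobs, which are taken here as hypotheses.
-/

namespace Vale.Agent.Lib.P248.H20A

open MeasureTheory Set
open scoped ENNReal
open Vale.Agent.Lib.P227 Vale.Agent.Lib.P248.H1

/-- The constant: the AM-GM inequality gives the factor `c_n`. -/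
theorem const_le (n : ℕ) {h τ : ℝ} (hh : 0 < h) (h0 : 0 < τ) (h1 : τ < 1)
    (L : (n + 2 : ℝ) ^ (n + 2) * (τ * (1 - τ) ^ (n + 1)) ≤ (n + 1 : ℝ) ^ (n + 1)) :
    ((n : ℝ) + 2) ^ (n + 2) / ((n : ℝ) + 1) ^ (n + 3) ≤
      h / (n + 1) * (1 / h * (1 / ((n + 1) * τ * (1 - τ) ^ (n + 1)))) := by
  have hn : (0 : ℝ) < (n : ℝ) + 1 := by positivity
  have h1' : 0 < 1 - τ := by linarith
  have hp : 0 < (1 - τ) ^ (n + 1) := pow_pos h1' _
  have e : h / (n + 1) * (1 / h * (1 / ((n + 1) * τ * (1 - τ) ^ (n + 1)))) =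
      1 / (((n : ℝ) + 1) ^ 2 * (τ * (1 - τ) ^ (n + 1))) := by
    field_simp
  rw [e, div_le_div_iff₀ (by positivity) (by positivity), one_mul]
  calc ((n : ℝ) + 2) ^ (n + 2) * (((n : ℝ) + 1) ^ 2 * (τ * (1 - τ) ^ (n + 1)))
      = ((n : ℝ) + 1) ^ 2 * (((n : ℝ) + 2) ^ (n + 2) * (τ * (1 - τ) ^ (n + 1))) := by ring
    _ ≤ ((n : ℝ) + 1) ^ 2 * ((n : ℝ) + 1) ^ (n + 1) :=
        mul_le_mul_of_nonneg_left L (by positivity)
    _ = ((n : ℝ) + 1) ^ (n + 3) := by ring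

/-- The product of the constants of two consecutive dimensions. -/
theorem const_mul (n : ℕ) :
    ((n : ℝ) + 2) ^ (n + 2) / ((n : ℝ) + 1) ^ (n + 3) *
        (((n : ℝ) + 1) ^ (n + 1) / ((n.factorial : ℝ)) ^ 2) =
      ((n : ℝ) + 2) ^ (n + 2) / (((n + 1).factorial : ℝ)) ^ 2 := by
  have hn : (0 : ℝ) < (n : ℝ) + 1 := by positivity
  have hf : (0 : ℝ) < (n.factorial : ℝ) := by exact_mod_cast n.factorial_pos
  rw [Nat.factorial_succ]
  push_cast
  field_simp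
  ring

/-- The cone inequality from the leaf statements. -/
theorem volProd_cone_ge_of_leaves {n : ℕ} (D : Set (EuclideanSpace ℝ (Fin n)))
    (c : EuclideanSpace ℝ (Fin n)) (h : ℝ) (hh : 0 < h)
    (L417 : ENNReal.ofReal (h / (n + 1)) * volume D ≤ volume (coneE D c h))
    (L418 : ∀ (v : EuclideanSpace ℝ (Fin n)) (S : Set (EuclideanSpace ℝ (Fin (n + 1)))),
      MeasurableSet S → volume (shear v h ⁻¹' S) = ENNReal.ofReal (1 / h) * volume S)
    (L419 : ∀ (ζ : EuclideanSpace ℝ (Fin n)) (τ : ℝ), 0 < τ → τ < 1 →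
      shear (c - ζ) h ⁻¹' polarModel D ζ τ ⊆
        polarAt (coneE D c h) (ecomb (τ * h) ((1 - τ) • ζ + τ • c)))
    (L420a : ∀ (ζ : EuclideanSpace ℝ (Fin n)) (τ : ℝ), MeasurableSet (polarModel D ζ τ))
    (L420b : ∀ (ζ : EuclideanSpace ℝ (Fin n)) (τ : ℝ), 0 < τ → τ < 1 →
      ENNReal.ofReal (1 / ((n + 1) * τ * (1 - τ) ^ (n + 1))) * volume (polarAt D ζ) ≤
        volume (polarModel D ζ τ))
    (L421 : ∀ z ∈ interior (coneE D c h), ∃ ζ ∈ interior D, ∃ τ : ℝ, 0 < τ ∧ τ < 1 ∧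
      z = ecomb (τ * h) ((1 - τ) • ζ + τ • c))
    (L422 : ∀ τ : ℝ, 0 ≤ τ → τ ≤ 1 →
      (n + 2 : ℝ) ^ (n + 2) * (τ * (1 - τ) ^ (n + 1)) ≤ (n + 1 : ℝ) ^ (n + 1)) :
    ENNReal.ofReal (((n : ℝ) + 2) ^ (n + 2) / ((n : ℝ) + 1) ^ (n + 3)) * volProd D ≤
      volProd (cone D c h) := by
  rw [cone_eq_coneE]
  unfold volProd
  refine le_iInf₂ fun z hz => ?_
  obtain ⟨ζ, hζ, τ, h0, h1, rfl⟩ := L421 z hz
  have hpol : ENNReal.ofReal (1 / h) *
      (ENNReal.ofReal (1 / ((n + 1) * τ * (1 - τ) ^ (n + 1))) * volume (polarAt D ζ)) ≤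
      volume (polarAt (coneE D c h) (ecomb (τ * h) ((1 - τ) • ζ + τ • c))) := by
    calc ENNReal.ofReal (1 / h) *
          (ENNReal.ofReal (1 / ((n + 1) * τ * (1 - τ) ^ (n + 1))) * volume (polarAt D ζ))
        ≤ ENNReal.ofReal (1 / h) * volume (polarModel D ζ τ) :=
          mul_le_mul' le_rfl (L420b ζ τ h0 h1)
      _ = volume (shear (c - ζ) h ⁻¹' polarModel D ζ τ) := (L418 _ _ (L420a ζ τ)).symm
      _ ≤ volume (polarAt (coneE D c h) (ecomb (τ * h) ((1 - τ) • ζ + τ • c))) :=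
          measure_mono (L419 ζ τ h0 h1)
  have h1' : 0 < 1 - τ := by linarith
  have hn : (0 : ℝ) < (n : ℝ) + 1 := by positivity
  calc ENNReal.ofReal (((n : ℝ) + 2) ^ (n + 2) / ((n : ℝ) + 1) ^ (n + 3)) *
        ⨅ z ∈ interior D, volume D * volume (polarAt D z)
      ≤ ENNReal.ofReal (((n : ℝ) + 2) ^ (n + 2) / ((n : ℝ) + 1) ^ (n + 3)) *
          (volume D * volume (polarAt D ζ)) := mul_le_mul' le_rfl (iInf₂_le ζ hζ)
    _ ≤ ENNReal.ofReal (h / (n + 1) * (1 / h * (1 / ((n + 1) * τ * (1 - τ) ^ (n + 1))))) *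
          (volume D * volume (polarAt D ζ)) :=
        mul_le_mul' (ENNReal.ofReal_le_ofReal
          (const_le n hh h0 h1 (L422 τ h0.le h1.le))) le_rfl
    _ = (ENNReal.ofReal (h / (n + 1)) * volume D) * (ENNReal.ofReal (1 / h) *
          (ENNReal.ofReal (1 / ((n + 1) * τ * (1 - τ) ^ (n + 1))) * volume (polarAt D ζ))) := by
        rw [ENNReal.ofReal_mul (by positivity), ENNReal.ofReal_mul (by positivity)]
        ring
    _ ≤ volume (coneE D c h) *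
          volume (polarAt (coneE D c h) (ecomb (τ * h) ((1 - τ) • ζ + τ • c))) :=
        mul_le_mul' L417 hpol

/-- The conditional consequence: the conjectured bound passes from the base to the cone. -/
theorem volProd_cone_bound_of_ge {n : ℕ} (D : Set (EuclideanSpace ℝ (Fin n)))
    (c : EuclideanSpace ℝ (Fin n)) (h : ℝ)
    (H : ENNReal.ofReal (((n : ℝ) + 2) ^ (n + 2) / ((n : ℝ) + 1) ^ (n + 3)) * volProd D ≤
      volProd (cone D c h))
    (hD : ENNReal.ofReal (((n : ℝ) + 1) ^ (n + 1) / ((n.factorial : ℝ)) ^ 2) ≤ volProd D) :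
    ENNReal.ofReal (((n : ℝ) + 2) ^ (n + 2) / (((n + 1).factorial : ℝ)) ^ 2) ≤
      volProd (cone D c h) := by
  have hn : (0 : ℝ) < (n : ℝ) + 1 := by positivity
  calc ENNReal.ofReal (((n : ℝ) + 2) ^ (n + 2) / (((n + 1).factorial : ℝ)) ^ 2)
      = ENNReal.ofReal (((n : ℝ) + 2) ^ (n + 2) / ((n : ℝ) + 1) ^ (n + 3)) *
          ENNReal.ofReal (((n : ℝ) + 1) ^ (n + 1) / ((n.factorial : ℝ)) ^ 2) := by
        rw [← ENNReal.ofReal_mul (by positivity), const_mul]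
    _ ≤ ENNReal.ofReal (((n : ℝ) + 2) ^ (n + 2) / ((n : ℝ) + 1) ^ (n + 3)) * volProd D :=
        mul_le_mul' le_rfl hD
    _ ≤ volProd (cone D c h) := H

end Vale.Agent.Lib.P248.H20A
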