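import Mathlib

/-!
# P248 (helper20): Meyer's cone inequality for convex sets in the positive orthant

For a closed convex set `M` in the positive orthant of `R^(n+1)` and a point `y ∈ M`, the cones
with apex `y` over the sections of `M` by the coordinate hyperplanes lie in `M` and overlap only
in null sets, so `∑ i, y i * |M ∩ {p i = 0}| ≤ (n + 1) * |M|`.  No down-closedness is assumed.
-/

namespace Vale.Agent.Lib.P248.H20M

open MeasureTheory Set
open scoped ENNReal

variable {n : ℕ}

/-- The section of `M` by the coordinate hyperplane `p i = 0`, as a subset of `R^n`. -/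
def sec0 (M : Set (Fin (n + 1) → ℝ)) (i : Fin (n + 1)) : Set (Fin n → ℝ) :=
  {z | (Fin.insertNth i (0 : ℝ) z : Fin (n + 1) → ℝ) ∈ M}

theorem isClosed_sec0 {M : Set (Fin (n + 1) → ℝ)} (hcl : IsClosed M) (i : Fin (n + 1)) :
    IsClosed (sec0 M i) :=
  hcl.preimage (continuous_const.finInsertNth i continuous_id)

/-- The point of the section from which the segment to the apex `y` passes through `q`. -/
noncomputable def backMap (y : Fin (n + 1) → ℝ) (i : Fin (n + 1)) (q : ℝ × (Fin n → ℝ)) :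
    Fin n → ℝ :=
  fun j => (1 - q.1 / y i)⁻¹ * (q.2 j - q.1 / y i * y (i.succAbove j))

theorem measurable_backMap (y : Fin (n + 1) → ℝ) (i : Fin (n + 1)) :
    Measurable (backMap y i) := by
  refine measurable_pi_iff.2 fun j => ?_
  unfold backMap
  have h1 : Measurable fun q : ℝ × (Fin n → ℝ) => q.1 / y i := measurable_fst.div_const _
  have h2 : Measurable fun q : ℝ × (Fin n → ℝ) => q.2 j :=
    (measurable_pi_apply j).comp measurable_snd
  exact ((measurable_const.sub h1).inv).mul (h2.sub (h1.mul_const _))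

/-- The cone with apex `y` over the section `p i = 0` of `M`, without the apex, in the
coordinates `(p i, the other coordinates)`. -/
def coneP (M : Set (Fin (n + 1) → ℝ)) (y : Fin (n + 1) → ℝ) (i : Fin (n + 1)) :
    Set (ℝ × (Fin n → ℝ)) :=
  {q | 0 ≤ q.1 ∧ q.1 < y i ∧ backMap y i q ∈ sec0 M i}

theorem measurableSet_coneP {M : Set (Fin (n + 1) → ℝ)} (hcl : IsClosed M)
    (y : Fin (n + 1) → ℝ) (i : Fin (n + 1)) : MeasurableSet (coneP M y i) := by
  have h1 : MeasurableSet {q : ℝ × (Fin n → ℝ) | 0 ≤ q.1} :=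
    measurableSet_le measurable_const measurable_fst
  have h2 : MeasurableSet {q : ℝ × (Fin n → ℝ) | q.1 < y i} :=
    measurableSet_lt measurable_fst measurable_const
  have h3 : MeasurableSet {q : ℝ × (Fin n → ℝ) | backMap y i q ∈ sec0 M i} :=
    (measurable_backMap y i) (isClosed_sec0 hcl i).measurableSet
  exact h1.inter (h2.inter h3)

/-- The same cone as a subset of `R^(n+1)`. -/
def coneC (M : Set (Fin (n + 1) → ℝ)) (y : Fin (n + 1) → ℝ) (i : Fin (n + 1)) :
    Set (Fin (n + 1) → ℝ) :=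
  (MeasurableEquiv.piFinSuccAbove (fun _ => ℝ) i) ⁻¹' coneP M y i

theorem measurableSet_coneC {M : Set (Fin (n + 1) → ℝ)} (hcl : IsClosed M)
    (y : Fin (n + 1) → ℝ) (i : Fin (n + 1)) : MeasurableSet (coneC M y i) :=
  (MeasurableEquiv.piFinSuccAbove (fun _ => ℝ) i).measurable (measurableSet_coneP hcl y i)

theorem mem_coneC {M : Set (Fin (n + 1) → ℝ)} {y : Fin (n + 1) → ℝ} {i : Fin (n + 1)}
    {p : Fin (n + 1) → ℝ} :
    p ∈ coneC M y i ↔ 0 ≤ p i ∧ p i < y i ∧
      (fun j => (1 - p i / y i)⁻¹ * (p (i.succAbove j) - p i / y i * y (i.succAbove j)))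
        ∈ sec0 M i := by
  unfold coneC coneP backMap
  simp only [mem_preimage, Set.mem_ofPred_eq, MeasurableEquiv.piFinSuccAbove_apply,
    Fin.insertNthEquiv, Equiv.coe_fn_symm_mk, Fin.removeNth]

/-- A point of the cone is a convex combination of a point of the section and the apex. -/
theorem coneC_repr {M : Set (Fin (n + 1) → ℝ)} {y : Fin (n + 1) → ℝ} {i : Fin (n + 1)}
    {p : Fin (n + 1) → ℝ} (hp : p ∈ coneC M y i) :
    ∃ b : Fin n → ℝ, (Fin.insertNth i (0 : ℝ) b : Fin (n + 1) → ℝ) ∈ M ∧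
      0 < y i ∧ 0 ≤ p i / y i ∧ p i / y i < 1 ∧ p i = p i / y i * y i ∧
      ∀ j : Fin n, p (i.succAbove j) = (1 - p i / y i) * b j + p i / y i * y (i.succAbove j) := by
  obtain ⟨h0, h1, hb⟩ := mem_coneC.1 hp
  have hy : 0 < y i := lt_of_le_of_lt h0 h1
  have ht1 : p i / y i < 1 := (div_lt_one hy).2 h1
  refine ⟨_, hb, hy, div_nonneg h0 hy.le, ht1, (div_mul_cancel₀ _ hy.ne').symm, fun j => ?_⟩
  have hne : 1 - p i / y i ≠ 0 := by linarith
  rw [← mul_assoc, mul_inv_cancel₀ hne, one_mul]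
  ring

theorem coneC_subset {M : Set (Fin (n + 1) → ℝ)} (hconv : Convex ℝ M)
    {y : Fin (n + 1) → ℝ} (hy : y ∈ M) (i : Fin (n + 1)) : coneC M y i ⊆ M := by
  intro p hp
  obtain ⟨b, hb, -, ht0, ht1, hpi, hps⟩ := coneC_repr hp
  have key : p = (1 - p i / y i) • (Fin.insertNth i (0 : ℝ) b : Fin (n + 1) → ℝ)
      + (p i / y i) • y := by
    funext k
    rcases Fin.eq_self_or_eq_succAbove i k with rfl | ⟨j, rfl⟩
    · simp only [Pi.add_apply, Pi.smul_apply, smul_eq_mul, Fin.insertNth_apply_same, mul_zero,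
        zero_add]
      exact hpi
    · simp only [Pi.add_apply, Pi.smul_apply, smul_eq_mul, Fin.insertNth_apply_succAbove]
      exact hps j
  rw [key]
  exact hconv hb hy (by linarith) ht0 (by ring)

theorem coneC_ratio {M : Set (Fin (n + 1) → ℝ)} (hnn : ∀ p ∈ M, ∀ i, 0 ≤ p i)
    {y : Fin (n + 1) → ℝ} {i : Fin (n + 1)} {p : Fin (n + 1) → ℝ} (hp : p ∈ coneC M y i)
    (k : Fin (n + 1)) : p i * y k ≤ p k * y i := by
  obtain ⟨b, hb, hy, ht0, ht1, hpi, hps⟩ := coneC_repr hp
  rcases Fin.eq_self_or_eq_succAbove i k with rfl | ⟨j, rfl⟩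
  · exact le_rfl
  · have hbj : 0 ≤ b j := by
      have := hnn _ hb (i.succAbove j)
      rwa [Fin.insertNth_apply_succAbove] at this
    rw [hps j]
    have h1 : 0 ≤ (1 - p i / y i) * b j * y i :=
      mul_nonneg (mul_nonneg (by linarith) hbj) hy.le
    have h2 : p i * y (i.succAbove j) = p i / y i * y (i.succAbove j) * y i := by
      field_simp
    rw [h2]
    nlinarith

/-- A hyperplane through the origin is a null set. -/
theorem volume_hyperplane {i j : Fin (n + 1)} (hij : i ≠ j) {c d : ℝ} (hc : c ≠ 0) :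
    volume {p : Fin (n + 1) → ℝ | p i * c = p j * d} = 0 := by
  let L : (Fin (n + 1) → ℝ) →ₗ[ℝ] ℝ :=
    c • LinearMap.proj (R := ℝ) (φ := fun _ : Fin (n + 1) => ℝ) i
      - d • LinearMap.proj (R := ℝ) (φ := fun _ : Fin (n + 1) => ℝ) j
  have hset : {p : Fin (n + 1) → ℝ | p i * c = p j * d} = (LinearMap.ker L : Set _) := by
    ext p
    simp only [Set.mem_ofPred_eq, SetLike.mem_coe, LinearMap.mem_ker, L, LinearMap.sub_apply,
      LinearMap.smul_apply, LinearMap.proj_apply, smul_eq_mul, sub_eq_zero]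
    constructor
    · intro h; linarith
    · intro h; linarith
  rw [hset]
  apply Measure.addHaar_submodule
  intro htop
  have hmem : (Pi.single i (1 : ℝ) : Fin (n + 1) → ℝ) ∈ LinearMap.ker L := by
    rw [htop]; trivial
  rw [LinearMap.mem_ker] at hmem
  simp only [L, LinearMap.sub_apply, LinearMap.smul_apply, LinearMap.proj_apply, smul_eq_mul,
    Pi.single_eq_same, Pi.single_eq_of_ne hij.symm, mul_one, mul_zero, sub_zero] at hmem
  exact hc hmem

theorem coneC_aedisjoint {M : Set (Fin (n + 1) → ℝ)} (hnn : ∀ p ∈ M, ∀ i, 0 ≤ p i)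
    (y : Fin (n + 1) → ℝ) {i j : Fin (n + 1)} (hij : i ≠ j) :
    AEDisjoint volume (coneC M y i) (coneC M y j) := by
  unfold AEDisjoint
  by_cases hyj : 0 < y j
  · refine measure_mono_null ?_ (volume_hyperplane (c := y j) (d := y i) hij hyj.ne')
    rintro p ⟨hpi, hpj⟩
    exact le_antisymm (coneC_ratio hnn hpi j) (coneC_ratio hnn hpj i)
  · have hempty : coneC M y j = ∅ := by
      ext p
      simp only [mem_empty_iff_false, iff_false]
      intro hp
      obtain ⟨h0, h1, -⟩ := mem_coneC.1 hp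
      exact hyj (lt_of_le_of_lt h0 h1)
    rw [hempty, inter_empty, measure_empty]

theorem lintegral_profile (n : ℕ) (h : ℝ) :
    ∫⁻ t in Ico (0 : ℝ) h, ENNReal.ofReal ((1 - t / h) ^ n) = ENNReal.ofReal (h / (n + 1)) := by
  rcases le_or_gt h 0 with hh | hh
  · rw [Ico_eq_empty (not_lt.2 hh), Measure.restrict_empty, lintegral_zero_measure]
    have : h / ((n : ℝ) + 1) ≤ 0 := div_nonpos_of_nonpos_of_nonneg hh (by positivity)
    rw [ENNReal.ofReal_of_nonpos this]
  have hcont : Continuous (fun t : ℝ => (1 - t / h) ^ n) := by fun_prop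
  have hint : IntegrableOn (fun t : ℝ => (1 - t / h) ^ n) (Ico (0 : ℝ) h) :=
    (hcont.integrableOn_Icc).mono_set Ico_subset_Icc_self
  have hnn : 0 ≤ᵐ[volume.restrict (Ico (0 : ℝ) h)] (fun t : ℝ => (1 - t / h) ^ n) := by
    refine (ae_restrict_iff' measurableSet_Ico).mpr (Filter.Eventually.of_forall fun t ht => ?_)
    have h1 : t / h ≤ 1 := (div_le_one hh).mpr ht.2.le
    exact pow_nonneg (by linarith) n
  rw [← ofReal_integral_eq_lintegral_ofReal hint hnn]
  congr 1
  rw [integral_Ico_eq_integral_Ioc, ← intervalIntegral.integral_of_le hh.le]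
  have hderiv : ∀ x ∈ uIcc (0 : ℝ) h,
      HasDerivAt (fun t : ℝ => -(h / (n + 1)) * (1 - t / h) ^ (n + 1)) ((1 - x / h) ^ n) x := by
    intro x _
    have h1 : HasDerivAt (fun t : ℝ => 1 - t / h) (-(1 / h)) x := by
      have h0 := ((hasDerivAt_id x).div_const h).const_sub 1
      simpa using h0
    have h2 : HasDerivAt (fun t : ℝ => -(h / (n + 1)) * (1 - t / h) ^ (n + 1))
        (-(h / (n + 1)) * (((n + 1 : ℕ) : ℝ) * (1 - x / h) ^ (n + 1 - 1) * -(1 / h))) x :=
      (h1.pow (n + 1)).const_mul (-(h / (n + 1)))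
    refine h2.congr_deriv ?_
    have hn : (n : ℝ) + 1 ≠ 0 := by positivity
    rw [Nat.add_sub_cancel]
    push_cast
    field_simp
  rw [intervalIntegral.integral_eq_sub_of_hasDerivAt hderiv (hcont.intervalIntegrable _ _)]
  have h0 : (1 - h / h) = 0 := by rw [div_self hh.ne', sub_self]
  rw [h0]
  simp

/-- The slices of the cone are dilated and translated copies of the section. -/
theorem volume_slice (M : Set (Fin (n + 1) → ℝ)) (y : Fin (n + 1) → ℝ) (i : Fin (n + 1))
    (s : ℝ) :
    volume (Prod.mk s ⁻¹' coneP M y i) =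
      (Ico (0 : ℝ) (y i)).indicator
        (fun s => ENNReal.ofReal ((1 - s / y i) ^ n) * volume (sec0 M i)) s := by
  by_cases hs : s ∈ Ico (0 : ℝ) (y i)
  · rw [indicator_of_mem hs]
    have hy : 0 < y i := lt_of_le_of_lt hs.1 hs.2
    have ht1 : s / y i < 1 := (div_lt_one hy).2 hs.2
    have ha : 0 < 1 - s / y i := by linarith
    have hset : Prod.mk s ⁻¹' coneP M y i =
        (fun w : Fin n → ℝ => w + (-(fun j => s / y i * y (i.succAbove j)))) ⁻¹'
          ((fun w : Fin n → ℝ => (1 - s / y i)⁻¹ • w) ⁻¹' sec0 M i) := by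
      ext w
      have hfun : backMap y i (s, w)
          = (1 - s / y i)⁻¹ • (w + -fun j => s / y i * y (i.succAbove j)) := by
        funext j
        simp only [backMap, Pi.smul_apply, Pi.add_apply, Pi.neg_apply, smul_eq_mul]
        ring
      simp only [mem_preimage, coneP, Set.mem_ofPred_eq]
      constructor
      · rintro ⟨-, -, hw⟩
        rw [← hfun]
        exact hw
      · intro hw
        refine ⟨hs.1, hs.2, ?_⟩
        rw [hfun]
        exact hw
    rw [hset, measure_preimage_add_right, Measure.addHaar_preimage_smul _ (inv_ne_zero ha.ne')]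
    congr 1
    rw [Module.finrank_fin_fun, inv_pow, inv_inv, abs_of_nonneg (pow_nonneg ha.le n)]
  · rw [indicator_of_notMem hs]
    have hempty : Prod.mk s ⁻¹' coneP M y i = ∅ := by
      ext w
      simp only [mem_preimage, coneP, Set.mem_ofPred_eq, mem_empty_iff_false, iff_false]
      rintro ⟨h0, h1, -⟩
      exact hs ⟨h0, h1⟩
    rw [hempty, measure_empty]

theorem volume_coneC {M : Set (Fin (n + 1) → ℝ)} (hcl : IsClosed M) (y : Fin (n + 1) → ℝ)
    (i : Fin (n + 1)) :
    volume (coneC M y i) = ENNReal.ofReal (y i / (n + 1)) * volume (sec0 M i) := by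
  have hmeas := measurableSet_coneP hcl y i
  have hmp := volume_preserving_piFinSuccAbove (fun _ : Fin (n + 1) => ℝ) i
  unfold coneC
  rw [hmp.measure_preimage hmeas.nullMeasurableSet, Measure.volume_eq_prod,
    Measure.prod_apply hmeas]
  simp_rw [volume_slice M y i]
  rw [lintegral_indicator measurableSet_Ico,
    lintegral_mul_const _ (by fun_prop : Measurable fun s : ℝ =>
      ENNReal.ofReal ((1 - s / y i) ^ n)), lintegral_profile]

/-- **Meyer's cone inequality** for a closed convex subset of the positive orthant. -/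
theorem meyer_cone_ineq (n : ℕ) (M : Set (Fin (n + 1) → ℝ)) (hcl : IsClosed M)
    (hconv : Convex ℝ M) (hnn : ∀ p ∈ M, ∀ i, 0 ≤ p i) (y : Fin (n + 1) → ℝ) (hy : y ∈ M) :
    ∑ i, ENNReal.ofReal (y i) *
        volume {z : Fin n → ℝ | (Fin.insertNth i (0 : ℝ) z : Fin (n + 1) → ℝ) ∈ M}
      ≤ ((n : ℝ≥0∞) + 1) * volume M := by
  change ∑ i, ENNReal.ofReal (y i) * volume (sec0 M i) ≤ ((n : ℝ≥0∞) + 1) * volume M
  have hn : (0 : ℝ) < (n : ℝ) + 1 := by positivity
  have hc : ((n : ℝ≥0∞) + 1) = ENNReal.ofReal ((n : ℝ) + 1) := by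
    rw [ENNReal.ofReal_add (Nat.cast_nonneg n) zero_le_one, ENNReal.ofReal_natCast,
      ENNReal.ofReal_one]
  have hterm : ∀ i : Fin (n + 1), ENNReal.ofReal (y i) * volume (sec0 M i)
      = ((n : ℝ≥0∞) + 1) * volume (coneC M y i) := by
    intro i
    rw [volume_coneC hcl, hc, ← mul_assoc, ← ENNReal.ofReal_mul hn.le]
    congr 2
    field_simp
  have hunion : volume (⋃ i ∈ (Finset.univ : Finset (Fin (n + 1))), coneC M y i)
      = ∑ i, volume (coneC M y i) :=
    measure_biUnion_finset₀ (fun i _ j _ hij => coneC_aedisjoint hnn y hij)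
      (fun i _ => (measurableSet_coneC hcl y i).nullMeasurableSet)
  calc ∑ i, ENNReal.ofReal (y i) * volume (sec0 M i)
      = ((n : ℝ≥0∞) + 1) * ∑ i, volume (coneC M y i) := by
        rw [Finset.mul_sum]
        exact Finset.sum_congr rfl fun i _ => hterm i
    _ = ((n : ℝ≥0∞) + 1) * volume (⋃ i ∈ (Finset.univ : Finset (Fin (n + 1))), coneC M y i) := by
        rw [hunion]
    _ ≤ ((n : ℝ≥0∞) + 1) * volume M := by
        refine mul_le_mul' le_rfl (measure_mono ?_)
        intro p hp
        simp only [mem_iUnion, Finset.mem_univ, exists_prop, true_and] at hp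
        obtain ⟨i, hi⟩ := hp
        exact coneC_subset hconv hy i hi

end Vale.Agent.Lib.P248.H20M
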