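import Mathlib
import Vale.Agent.Lib.P248.helper37.Q2Defs
import Vale.Agent.Lib.P248.helper20.MeyerCone

/-!
# P248 (helper20): the cone inequality for compact convex sets in the positive orthant

The statement of pool job J1, obtained from `H20M.meyer_cone_ineq`.
-/

open MeasureTheory Set

namespace Vale.Agent.Lib.P248.H20Q

open Vale.Agent.Lib.P248.H37 Vale.Agent.Lib.P248.H37Q

theorem cone_ineq_convex (n : ℕ) (M : Set (Fin (n + 1) → ℝ)) (hcomp : IsCompact M)
    (hconv : Convex ℝ M) (hnn : ∀ p ∈ M, ∀ i, 0 ≤ p i) (y : Fin (n + 1) → ℝ) (hy : y ∈ M) :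
    ∑ i, ENNReal.ofReal (y i) * volume (sec M i) ≤ ((n : ENNReal) + 1) * volume M :=
  Vale.Agent.Lib.P248.H20M.meyer_cone_ineq n M hcomp.isClosed hconv hnn y hy

end Vale.Agent.Lib.P248.H20Q
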