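import Mathlib
import Vale.Agent.Lib.P227.helper98.Fibre

/-!
# Transfer identity for the volume product of bodies with homothetic parallel sections

Backup copy (helper20) of the identity of helper61's proof report for P248:
if the sections of `K` and `K'` at every height are the same dilate of `A` and of `A'`,
then `|K| |K°| |A'| |A'°| = |K'| |K'°| |A| |A°|`.
-/

namespace Vale.Agent.Lib.P248.H20

open MeasureTheory Set
open scoped ENNReal Pointwise
open Vale.Agent.Lib.P227

/-- The polar set `{y | ⟪x, y⟫ ≤ 1 for all x ∈ S}`. -/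
def polarSet {E : Type*} [NormedAddCommGroup E] [InnerProductSpace ℝ E] (S : Set E) : Set E :=
  {y | ∀ x ∈ S, inner ℝ x y ≤ 1}

theorem isClosed_polarSet {E : Type*} [NormedAddCommGroup E] [InnerProductSpace ℝ E]
    (S : Set E) : IsClosed (polarSet S) := by
  have e : polarSet S = ⋂ x ∈ S, {y : E | inner ℝ x y ≤ 1} := by
    ext y
    simp [polarSet]
  rw [e]
  exact isClosed_biInter fun x _ => isClosed_le (by fun_prop) continuous_const

theorem zero_mem_polarSet {E : Type*} [NormedAddCommGroup E] [InnerProductSpace ℝ E]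
    (S : Set E) : (0 : E) ∈ polarSet S := by
  intro x _
  simp

/-- Volume half: two measurable sets with the same profile over `B` and `B'`. -/
theorem vol_transfer {n : ℕ} {S S' : Set (EuclideanSpace ℝ (Fin (n + 1)))}
    (hS : MeasurableSet S) (hS' : MeasurableSet S') (B B' : Set (EuclideanSpace ℝ (Fin n)))
    (h : ∀ t : ℝ, (sec t S = ∅ ∧ sec t S' = ∅) ∨
      ∃ a : ℝ, 0 ≤ a ∧ sec t S = a • B ∧ sec t S' = a • B') :
    volume S * volume B' = volume S' * volume B := by
  rw [volume_eq_lintegral_sec hS, volume_eq_lintegral_sec hS',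
    ← lintegral_mul_const _ (measurable_volume_sec hS),
    ← lintegral_mul_const _ (measurable_volume_sec hS')]
  refine lintegral_congr fun t => ?_
  rcases h t with ⟨h1, h2⟩ | ⟨a, _, h1, h2⟩
  · rw [h1, h2]
    simp
  · rw [h1, h2, Measure.addHaar_smul, Measure.addHaar_smul]
    ring

/-- A measurable set all of whose sections are empty or `0 • B` is a null set. -/
theorem vol_zero_of_flat {n : ℕ} (hn : 1 ≤ n) {S : Set (EuclideanSpace ℝ (Fin (n + 1)))}
    (hS : MeasurableSet S) (B : Set (EuclideanSpace ℝ (Fin n)))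
    (h : ∀ t : ℝ, sec t S = ∅ ∨ sec t S = (0 : ℝ) • B) : volume S = 0 := by
  rw [volume_eq_lintegral_sec hS]
  have h0 : ∀ t : ℝ, volume (sec t S) = 0 := by
    intro t
    rcases h t with h1 | h1
    · rw [h1]
      simp
    · rw [h1, Measure.addHaar_smul]
      have : (0 : ℝ) ^ Module.finrank ℝ (EuclideanSpace ℝ (Fin n)) = 0 := by
        rw [finrank_euclideanSpace_fin]
        exact zero_pow (by omega)
      rw [this]
      simp
  simp [h0]

/-- Membership in a section of the polar set. -/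
theorem mem_sec_polarSet {n : ℕ} {K : Set (EuclideanSpace ℝ (Fin (n + 1)))} {τ : ℝ}
    {η : EuclideanSpace ℝ (Fin n)} :
    η ∈ sec τ (polarSet K) ↔ ∀ t : ℝ, ∀ w ∈ sec t K, t * τ + inner ℝ w η ≤ 1 := by
  constructor
  · intro h t w hw
    have := h (ecomb t w) hw
    rwa [inner_ecomb] at this
  · intro h x hx
    have hx' : etail x ∈ sec (x 0) K := by
      show ecomb (x 0) (etail x) ∈ K
      rw [ecomb_eta]
      exact hx
    have := h (x 0) (etail x) hx'
    rw [← ecomb_eta x, inner_ecomb]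
    exact this

/-- If some section of `K` contains `0` at a height `t` with `t * τ > 1`, the section of the
polar set at `τ` is empty. -/
theorem sec_polarSet_empty {n : ℕ} {K : Set (EuclideanSpace ℝ (Fin (n + 1)))} {τ : ℝ}
    (h : ∃ t : ℝ, (0 : EuclideanSpace ℝ (Fin n)) ∈ sec t K ∧ 1 < t * τ) :
    sec τ (polarSet K) = ∅ := by
  obtain ⟨t, h0, hlt⟩ := h
  ext η
  simp only [mem_empty_iff_false, iff_false]
  intro hη
  have := (mem_sec_polarSet.1 hη) t 0 h0
  simp at this
  linarith

/-- The section of the polar set in the other case. -/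
theorem sec_polarSet_eq {n : ℕ} {K : Set (EuclideanSpace ℝ (Fin (n + 1)))}
    {A : Set (EuclideanSpace ℝ (Fin n))}
    (hA : (0 : EuclideanSpace ℝ (Fin n)) ∈ interior A)
    (P : Set (ℝ × ℝ))
    (hP1 : ∀ p ∈ P, 0 ≤ p.2 ∧ sec p.1 K = p.2 • A)
    (hP2 : ∀ t : ℝ, (sec t K).Nonempty → ∃ a : ℝ, (t, a) ∈ P)
    {τ : ℝ} (hτ : ∀ p ∈ P, p.1 * τ ≤ 1)
    (hpos : ∃ p ∈ P, 0 < p.2) :
    sec τ (polarSet K)
      = sInf ((fun p : ℝ × ℝ => (1 - p.1 * τ) / p.2) '' {p | p ∈ P ∧ 0 < p.2}) • polarSet A := by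
  set C : Set ℝ := (fun p : ℝ × ℝ => (1 - p.1 * τ) / p.2) '' {p | p ∈ P ∧ 0 < p.2} with hC
  have hCne : C.Nonempty := by
    obtain ⟨p, hp, hp2⟩ := hpos
    exact ⟨_, ⟨p, ⟨hp, hp2⟩, rfl⟩⟩
  have hC0 : ∀ c ∈ C, 0 ≤ c := by
    rintro c ⟨p, ⟨hp, hp2⟩, rfl⟩
    exact div_nonneg (by linarith [hτ p hp]) hp2.le
  have hCb : BddBelow C := ⟨0, fun c hc => hC0 c hc⟩
  have hc0 : 0 ≤ sInf C := le_csInf hCne hC0
  have h0A : (0 : EuclideanSpace ℝ (Fin n)) ∈ A := interior_subset hA
  ext η
  constructor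
  · intro hη
    have hη' := mem_sec_polarSet.1 hη
    have key : ∀ w ∈ A, inner ℝ w η ≤ sInf C := by
      intro w hw
      refine le_csInf hCne ?_
      rintro c ⟨p, ⟨hp, hp2⟩, rfl⟩
      have hw' : p.2 • w ∈ sec p.1 K := by
        rw [(hP1 p hp).2]
        exact smul_mem_smul_set hw
      have h1 := hη' p.1 (p.2 • w) hw'
      rw [inner_smul_left] at h1
      simp only [conj_trivial] at h1
      rw [le_div_iff₀ hp2]
      linarith
    rcases hc0.eq_or_lt with hc | hc
    · -- the infimum is zero: `η = 0`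
      rw [← hc]
      have hη0 : η = 0 := by
        by_contra hne
        obtain ⟨r, hr, hball⟩ := Metric.mem_nhds_iff.1 (mem_interior_iff_mem_nhds.1 hA)
        have hnorm : 0 < ‖η‖ := norm_pos_iff.2 hne
        have hw : (r / (2 * ‖η‖)) • η ∈ A := by
          apply hball
          rw [Metric.mem_ball, dist_zero_right, norm_smul, Real.norm_eq_abs,
            abs_of_pos (div_pos hr (by positivity))]
          have : r / (2 * ‖η‖) * ‖η‖ = r / 2 := by
            field_simp
          rw [this]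
          linarith
        have h1 := key _ hw
        rw [← hc, inner_smul_left, real_inner_self_eq_norm_sq] at h1
        simp only [conj_trivial] at h1
        have : 0 < r / (2 * ‖η‖) * ‖η‖ ^ 2 := by positivity
        linarith
      rw [hη0]
      exact ⟨0, zero_mem_polarSet A, by simp⟩
    · refine ⟨(sInf C)⁻¹ • η, ?_, ?_⟩
      · intro w hw
        rw [inner_smul_right]
        have h1 := key w hw
        rw [inv_mul_le_iff₀ hc]
        linarith
      · show sInf C • ((sInf C)⁻¹ • η) = η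
        rw [smul_smul, mul_inv_cancel₀ hc.ne', one_smul]
  · rintro ⟨ζ, hζ, rfl⟩
    refine mem_sec_polarSet.2 ?_
    intro t w hw
    obtain ⟨a, hta⟩ := hP2 t ⟨w, hw⟩
    have ha : 0 ≤ a := (hP1 _ hta).1
    have hsec : sec t K = a • A := (hP1 _ hta).2
    rw [hsec] at hw
    obtain ⟨w0, hw0, rfl⟩ := hw
    have h1 : inner ℝ w0 ζ ≤ 1 := hζ w0 hw0
    have hac : a * sInf C ≤ 1 - t * τ := by
      rcases ha.eq_or_lt with ha0 | ha0
      · rw [← ha0, zero_mul]
        linarith [hτ _ hta]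
      · have : sInf C ≤ (1 - t * τ) / a := csInf_le hCb ⟨(t, a), ⟨hta, ha0⟩, rfl⟩
        rw [le_div_iff₀ ha0] at this
        linarith
    rw [inner_smul_left, inner_smul_right]
    simp only [conj_trivial]
    have h2 : a * (sInf C * inner ℝ w0 ζ) ≤ a * sInf C := by
      have := mul_le_mul_of_nonneg_left h1 (mul_nonneg ha hc0)
      linarith
    linarith

/-- **Transfer identity.** -/
theorem transfer {n : ℕ} (hn : 1 ≤ n)
    {A A' : Set (EuclideanSpace ℝ (Fin n))}
    (hA : (0 : EuclideanSpace ℝ (Fin n)) ∈ interior A)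
    (hA' : (0 : EuclideanSpace ℝ (Fin n)) ∈ interior A')
    {K K' : Set (EuclideanSpace ℝ (Fin (n + 1)))} (hK : IsCompact K) (hK' : IsCompact K')
    (h : ∀ t : ℝ, (sec t K = ∅ ∧ sec t K' = ∅) ∨
      ∃ a : ℝ, 0 ≤ a ∧ sec t K = a • A ∧ sec t K' = a • A') :
    volume K * volume (polarSet K) * volume A' * volume (polarSet A')
      = volume K' * volume (polarSet K') * volume A * volume (polarSet A) := by
  have h0A : (0 : EuclideanSpace ℝ (Fin n)) ∈ A := interior_subset hA
  have h0A' : (0 : EuclideanSpace ℝ (Fin n)) ∈ A' := interior_subset hA'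
  set P : Set (ℝ × ℝ) := {p | 0 ≤ p.2 ∧ sec p.1 K = p.2 • A ∧ sec p.1 K' = p.2 • A'} with hP
  have hK2 : ∀ t : ℝ, (sec t K).Nonempty → ∃ a : ℝ, (t, a) ∈ P := by
    intro t hne
    rcases h t with ⟨h1, _⟩ | ⟨a, ha, h1, h2⟩
    · rw [h1] at hne
      exact absurd hne not_nonempty_empty
    · exact ⟨a, ha, h1, h2⟩
  have hK'2 : ∀ t : ℝ, (sec t K').Nonempty → ∃ a : ℝ, (t, a) ∈ P := by
    intro t hne
    rcases h t with ⟨_, h2⟩ | ⟨a, ha, h1, h2⟩
    · rw [h2] at hne
      exact absurd hne not_nonempty_empty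
    · exact ⟨a, ha, h1, h2⟩
  by_cases hpos : ∃ p ∈ P, 0 < p.2
  · have hv := vol_transfer hK.measurableSet hK'.measurableSet A A' h
    have hprof : ∀ τ : ℝ, (sec τ (polarSet K) = ∅ ∧ sec τ (polarSet K') = ∅) ∨
        ∃ c : ℝ, 0 ≤ c ∧ sec τ (polarSet K) = c • polarSet A ∧
          sec τ (polarSet K') = c • polarSet A' := by
      intro τ
      by_cases hτn : ∃ p ∈ P, 1 < p.1 * τ
      · left
        obtain ⟨p, hp, hlt⟩ := hτn
        constructor
        · refine sec_polarSet_empty ⟨p.1, ?_, hlt⟩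
          rw [hp.2.1]
          exact ⟨0, h0A, smul_zero _⟩
        · refine sec_polarSet_empty ⟨p.1, ?_, hlt⟩
          rw [hp.2.2]
          exact ⟨0, h0A', smul_zero _⟩
      · right
        have hτ : ∀ p ∈ P, p.1 * τ ≤ 1 := fun p hp => not_lt.1 fun hlt => hτn ⟨p, hp, hlt⟩
        refine ⟨sInf ((fun p : ℝ × ℝ => (1 - p.1 * τ) / p.2) '' {p | p ∈ P ∧ 0 < p.2}), ?_,
          sec_polarSet_eq hA P (fun p hp => ⟨hp.1, hp.2.1⟩) hK2 hτ hpos,
          sec_polarSet_eq hA' P (fun p hp => ⟨hp.1, hp.2.2⟩) hK'2 hτ hpos⟩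
        obtain ⟨p, hp, hp2⟩ := hpos
        refine le_csInf ⟨_, ⟨p, ⟨hp, hp2⟩, rfl⟩⟩ ?_
        rintro c ⟨q, ⟨hq, hq2⟩, rfl⟩
        exact div_nonneg (by linarith [hτ q hq]) hq2.le
    have hp := vol_transfer (isClosed_polarSet K).measurableSet
      (isClosed_polarSet K').measurableSet (polarSet A) (polarSet A') hprof
    calc volume K * volume (polarSet K) * volume A' * volume (polarSet A')
        = (volume K * volume A') * (volume (polarSet K) * volume (polarSet A')) := by ring
      _ = (volume K' * volume A) * (volume (polarSet K') * volume (polarSet A)) := by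
          rw [hv, hp]
      _ = volume K' * volume (polarSet K') * volume A * volume (polarSet A) := by ring
  · have hflat : ∀ t : ℝ, (sec t K = ∅ ∨ sec t K = (0 : ℝ) • A) ∧
        (sec t K' = ∅ ∨ sec t K' = (0 : ℝ) • A') := by
      intro t
      rcases h t with ⟨h1, h2⟩ | ⟨a, ha, h1, h2⟩
      · exact ⟨Or.inl h1, Or.inl h2⟩
      · have ha0 : a = 0 := by
          by_contra hne
          exact hpos ⟨(t, a), ⟨ha, h1, h2⟩, lt_of_le_of_ne ha (Ne.symm hne)⟩
        subst ha0
        exact ⟨Or.inr h1, Or.inr h2⟩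
    have hK0 : volume K = 0 := vol_zero_of_flat hn hK.measurableSet A fun t => (hflat t).1
    have hK'0 : volume K' = 0 := vol_zero_of_flat hn hK'.measurableSet A' fun t => (hflat t).2
    rw [hK0, hK'0]
    simp

end Vale.Agent.Lib.P248.H20
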