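import Mathlib
import Vale.Agent.Lib.P248.helper20.Transfer

/-!
# P248 (helper20): the volume product of a right cone about a point of its axis

`A ⊆ R^n` with `0` in its interior, `h > 0`, `0 < τ < 1`.  Let `K ⊆ R × R^n` be the set whose
section at height `t` is `((1 - τ) - t / h) • A` for `-τ h ≤ t ≤ (1 - τ) h` and empty otherwise
(the cone of height `h` over `A`, with its apex above the origin of `A`, translated so that the
point of the axis at relative height `τ` is the origin).  Then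
`|K| |K°| = |A| |A°| / ((n + 1)^2 τ (1 - τ)^(n + 1))`.
-/

namespace Vale.Agent.Lib.P248.H20Q2

open MeasureTheory Set
open scoped ENNReal Pointwise
open Vale.Agent.Lib.P227 Vale.Agent.Lib.P248.H20

/-- The volume of a set whose sections are dilates `f t • B` for `t` in an interval. -/
theorem vol_profile_Icc {n : ℕ} {S : Set (EuclideanSpace ℝ (Fin (n + 1)))} (hS : MeasurableSet S)
    (B : Set (EuclideanSpace ℝ (Fin n))) {t0 t1 : ℝ} (h01 : t0 ≤ t1) {f : ℝ → ℝ}
    (hf : Continuous f) (hnn : ∀ t ∈ Icc t0 t1, 0 ≤ f t)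
    (h1 : ∀ t ∈ Icc t0 t1, sec t S = f t • B) (h2 : ∀ t : ℝ, t ∉ Icc t0 t1 → sec t S = ∅) :
    volume S = ENNReal.ofReal (∫ t in t0..t1, f t ^ n) * volume B := by
  have e : ∀ t : ℝ, volume (sec t S)
      = (Icc t0 t1).indicator (fun t => ENNReal.ofReal (f t ^ n) * volume B) t := by
    intro t
    by_cases ht : t ∈ Icc t0 t1
    · rw [indicator_of_mem ht, h1 t ht, Measure.addHaar_smul, finrank_euclideanSpace_fin,
        abs_of_nonneg (pow_nonneg (hnn t ht) _)]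
    · rw [indicator_of_notMem ht, h2 t ht, measure_empty]
  have hint : IntegrableOn (fun t => f t ^ n) (Icc t0 t1) volume :=
    (hf.pow n).continuousOn.integrableOn_Icc
  have hm : AEMeasurable (fun t => ENNReal.ofReal (f t ^ n)) (volume.restrict (Icc t0 t1)) :=
    (hf.measurable.pow_const n).ennreal_ofReal.aemeasurable
  rw [volume_eq_lintegral_sec hS]
  simp only [e]
  rw [lintegral_indicator measurableSet_Icc, lintegral_mul_const'' _ hm,
    intervalIntegral.integral_of_le h01, ← integral_Icc_eq_integral_Ioc,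
    ofReal_integral_eq_lintegral_ofReal hint
      ((ae_restrict_iff' measurableSet_Icc).2
        (Filter.Eventually.of_forall fun t ht => pow_nonneg (hnn t ht) _))]

/-- The sections of the polar set of the cone. -/
theorem cone_sec_polar {n : ℕ} {A : Set (EuclideanSpace ℝ (Fin n))}
    (hA : (0 : EuclideanSpace ℝ (Fin n)) ∈ interior A)
    {K : Set (EuclideanSpace ℝ (Fin (n + 1)))} {h τ : ℝ} (hh : 0 < h) (hτ0 : 0 < τ)
    (hτ1 : τ < 1)
    (h1 : ∀ t ∈ Icc (-(τ * h)) ((1 - τ) * h), sec t K = ((1 - τ) - t / h) • A)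
    (h2 : ∀ t : ℝ, t ∉ Icc (-(τ * h)) ((1 - τ) * h) → sec t K = ∅)
    {s : ℝ} (hs : s ∈ Icc (-(1 / (τ * h))) (1 / ((1 - τ) * h))) :
    sec s (polarSet K) = (1 + τ * h * s) • polarSet A := by
  have hτh : 0 < τ * h := mul_pos hτ0 hh
  have hτh' : 0 < (1 - τ) * h := mul_pos (by linarith) hh
  obtain ⟨P, hPdef⟩ : ∃ P : Set (ℝ × ℝ),
      P = {p | p.1 ∈ Icc (-(τ * h)) ((1 - τ) * h) ∧ p.2 = (1 - τ) - p.1 / h} := ⟨_, rfl⟩
  have hPmem : ∀ p : ℝ × ℝ, p ∈ P ↔
      p.1 ∈ Icc (-(τ * h)) ((1 - τ) * h) ∧ p.2 = (1 - τ) - p.1 / h := by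
    intro p; rw [hPdef]; rfl
  have hα0 : ∀ t ∈ Icc (-(τ * h)) ((1 - τ) * h), 0 ≤ (1 - τ) - t / h := by
    intro t ht
    have h3 : t / h ≤ 1 - τ := by
      rw [div_le_iff₀ hh]; exact ht.2
    linarith
  have hs1 : (1 - τ) * h * s ≤ 1 := by
    have := hs.2
    rw [le_div_iff₀ hτh'] at this
    linarith
  have hs0 : -1 ≤ τ * h * s := by
    have h3 := hs.1
    rw [neg_le, le_div_iff₀ hτh] at h3
    linarith
  have hP1 : ∀ p ∈ P, 0 ≤ p.2 ∧ sec p.1 K = p.2 • A := by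
    intro p hp
    rw [hPmem] at hp
    rw [hp.2]
    exact ⟨hα0 p.1 hp.1, h1 p.1 hp.1⟩
  have hP2 : ∀ t : ℝ, (sec t K).Nonempty → ∃ a : ℝ, (t, a) ∈ P := by
    intro t ht
    by_cases htm : t ∈ Icc (-(τ * h)) ((1 - τ) * h)
    · exact ⟨(1 - τ) - t / h, (hPmem _).2 ⟨htm, rfl⟩⟩
    · rw [h2 t htm] at ht
      exact absurd ht Set.not_nonempty_empty
  have hτP : ∀ p ∈ P, p.1 * s ≤ 1 := by
    intro p hp
    rw [hPmem] at hp
    rcases le_total 0 s with h0s | h0s
    · nlinarith [hp.1.2]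
    · nlinarith [hp.1.1]
  have hpos : ∃ p ∈ P, 0 < p.2 := by
    refine ⟨(-(τ * h), 1), (hPmem _).2 ⟨⟨le_refl _, by linarith⟩, ?_⟩, by norm_num⟩
    show (1 : ℝ) = (1 - τ) - -(τ * h) / h
    field_simp
    ring
  rw [sec_polarSet_eq hA P hP1 hP2 hτP hpos]
  congr 1
  apply IsLeast.csInf_eq
  constructor
  · refine ⟨(-(τ * h), 1), ⟨(hPmem _).2 ⟨⟨le_refl _, by linarith⟩, ?_⟩, by norm_num⟩, ?_⟩
    · show (1 : ℝ) = (1 - τ) - -(τ * h) / h
      field_simp
      ring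
    · show (1 - -(τ * h) * s) / 1 = 1 + τ * h * s
      rw [div_one]; ring
  · rintro c ⟨p, ⟨hp, hp2⟩, rfl⟩
    rw [hPmem] at hp
    show 1 + τ * h * s ≤ (1 - p.1 * s) / p.2
    rw [le_div_iff₀ hp2, hp.2]
    have h3 : (1 - p.1 * s) - (1 + τ * h * s) * ((1 - τ) - p.1 / h)
        = (p.1 + τ * h) * (1 / h - (1 - τ) * s) := by
      field_simp
      ring
    have h4 : 0 ≤ p.1 + τ * h := by linarith [hp.1.1]
    have h5 : 0 ≤ 1 / h - (1 - τ) * s := by
      rw [sub_nonneg, le_div_iff₀ hh]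
      linarith
    nlinarith [mul_nonneg h4 h5]

/-- Outside the interval the sections of the polar set are empty. -/
theorem cone_sec_polar_empty {n : ℕ} {A : Set (EuclideanSpace ℝ (Fin n))}
    (hA : (0 : EuclideanSpace ℝ (Fin n)) ∈ interior A)
    {K : Set (EuclideanSpace ℝ (Fin (n + 1)))} {h τ : ℝ} (hh : 0 < h) (hτ0 : 0 < τ)
    (hτ1 : τ < 1)
    (h1 : ∀ t ∈ Icc (-(τ * h)) ((1 - τ) * h), sec t K = ((1 - τ) - t / h) • A)
    {s : ℝ} (hs : s ∉ Icc (-(1 / (τ * h))) (1 / ((1 - τ) * h))) :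
    sec s (polarSet K) = ∅ := by
  have hτh : 0 < τ * h := mul_pos hτ0 hh
  have hτh' : 0 < (1 - τ) * h := mul_pos (by linarith) hh
  have h0A : (0 : EuclideanSpace ℝ (Fin n)) ∈ A := interior_subset hA
  apply sec_polarSet_empty
  by_cases hs1 : s ≤ 1 / ((1 - τ) * h)
  · have hs0 : s < -(1 / (τ * h)) := by
      by_contra hcon
      exact hs ⟨not_lt.1 hcon, hs1⟩
    refine ⟨-(τ * h), ?_, ?_⟩
    · rw [h1 _ ⟨le_refl _, by linarith⟩]
      have e : (1 - τ) - -(τ * h) / h = 1 := by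
        field_simp
        ring
      rw [e, one_smul]
      exact h0A
    · rw [lt_neg, div_lt_iff₀ hτh] at hs0
      linarith
  · have hs1' : 1 / ((1 - τ) * h) < s := not_le.1 hs1
    refine ⟨(1 - τ) * h, ?_, ?_⟩
    · rw [h1 _ ⟨by linarith, le_refl _⟩]
      have e : (1 - τ) - (1 - τ) * h / h = 0 := by
        field_simp
        ring
      rw [e, zero_smul_set ⟨0, h0A⟩]
      rfl
    · rw [div_lt_iff₀ hτh'] at hs1'
      linarith

theorem cone_integral_one (n : ℕ) {h τ : ℝ} (hh : 0 < h) :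
    ∫ t in (-(τ * h))..((1 - τ) * h), ((1 - τ) - t / h) ^ n = h / ((n : ℝ) + 1) := by
  have hn : (0 : ℝ) < (n : ℝ) + 1 := by positivity
  have hderiv : ∀ t ∈ uIcc (-(τ * h)) ((1 - τ) * h),
      HasDerivAt (fun t : ℝ => -h * ((1 - τ) - t / h) ^ (n + 1) / ((n : ℝ) + 1))
        (((1 - τ) - t / h) ^ n) t := by
    intro t _
    have h1 : HasDerivAt (fun t : ℝ => (1 - τ) - t / h) (-(1 / h)) t :=
      ((hasDerivAt_id t).div_const h).const_sub (1 - τ)
    have h2 : HasDerivAt (fun t : ℝ => -h * ((1 - τ) - t / h) ^ (n + 1) / ((n : ℝ) + 1)) _ t :=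
      ((h1.pow (n + 1)).const_mul (-h)).div_const ((n : ℝ) + 1)
    refine h2.congr_deriv ?_
    simp only [Nat.add_sub_cancel]
    push_cast
    field_simp
  rw [intervalIntegral.integral_eq_sub_of_hasDerivAt hderiv
    ((by fun_prop : Continuous fun t : ℝ => ((1 - τ) - t / h) ^ n).intervalIntegrable _ _)]
  have e1 : (1 - τ) - (1 - τ) * h / h = 0 := by
    field_simp
    ring
  have e2 : (1 - τ) - -(τ * h) / h = 1 := by
    field_simp
    ring
  rw [e1, e2]
  simp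
  ring

theorem cone_integral_two (n : ℕ) {h τ : ℝ} (hh : 0 < h) (hτ0 : 0 < τ) (hτ1 : τ < 1) :
    ∫ s in (-(1 / (τ * h)))..(1 / ((1 - τ) * h)), (1 + τ * h * s) ^ n
      = (1 / (1 - τ)) ^ (n + 1) / (((n : ℝ) + 1) * (τ * h)) := by
  have hn : (0 : ℝ) < (n : ℝ) + 1 := by positivity
  have hτh : 0 < τ * h := mul_pos hτ0 hh
  have h1τ : 0 < 1 - τ := by linarith
  have hderiv : ∀ s ∈ uIcc (-(1 / (τ * h))) (1 / ((1 - τ) * h)),
      HasDerivAt (fun s : ℝ => (1 + τ * h * s) ^ (n + 1) / (((n : ℝ) + 1) * (τ * h)))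
        ((1 + τ * h * s) ^ n) s := by
    intro s _
    have h1 : HasDerivAt (fun s : ℝ => 1 + τ * h * s) (τ * h) s := by
      have := ((hasDerivAt_id s).const_mul (τ * h)).const_add 1
      simpa using this
    have h2 : HasDerivAt
        (fun s : ℝ => (1 + τ * h * s) ^ (n + 1) / (((n : ℝ) + 1) * (τ * h))) _ s :=
      (h1.pow (n + 1)).div_const (((n : ℝ) + 1) * (τ * h))
    refine h2.congr_deriv ?_
    simp only [Nat.add_sub_cancel]
    push_cast
    field_simp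
  rw [intervalIntegral.integral_eq_sub_of_hasDerivAt hderiv
    ((by fun_prop : Continuous fun s : ℝ => (1 + τ * h * s) ^ n).intervalIntegrable _ _)]
  have e1 : 1 + τ * h * (1 / ((1 - τ) * h)) = 1 / (1 - τ) := by
    field_simp
    ring
  have e2 : 1 + τ * h * -(1 / (τ * h)) = 0 := by
    field_simp
    ring
  rw [e1, e2]
  simp

/-- **The volume product of a right cone about a point of its axis.** -/
theorem cone_core {n : ℕ} {A : Set (EuclideanSpace ℝ (Fin n))}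
    (hA : (0 : EuclideanSpace ℝ (Fin n)) ∈ interior A)
    {K : Set (EuclideanSpace ℝ (Fin (n + 1)))} (hK : MeasurableSet K) {h τ : ℝ} (hh : 0 < h)
    (hτ0 : 0 < τ) (hτ1 : τ < 1)
    (h1 : ∀ t ∈ Icc (-(τ * h)) ((1 - τ) * h), sec t K = ((1 - τ) - t / h) • A)
    (h2 : ∀ t : ℝ, t ∉ Icc (-(τ * h)) ((1 - τ) * h) → sec t K = ∅) :
    volume K * volume (polarSet K)
      = ENNReal.ofReal (1 / (((n : ℝ) + 1) ^ 2 * τ * (1 - τ) ^ (n + 1)))
        * (volume A * volume (polarSet A)) := by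
  have hn : (0 : ℝ) < (n : ℝ) + 1 := by positivity
  have hτh : 0 < τ * h := mul_pos hτ0 hh
  have h1τ : 0 < 1 - τ := by linarith
  have hτh' : 0 < (1 - τ) * h := mul_pos h1τ hh
  have hα0 : ∀ t ∈ Icc (-(τ * h)) ((1 - τ) * h), 0 ≤ (1 - τ) - t / h := by
    intro t ht
    have h3 : t / h ≤ 1 - τ := by
      rw [div_le_iff₀ hh]; exact ht.2
    linarith
  have hβ0 : ∀ s ∈ Icc (-(1 / (τ * h))) (1 / ((1 - τ) * h)), 0 ≤ 1 + τ * h * s := by
    intro s hs
    have h3 := hs.1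
    rw [neg_le, le_div_iff₀ hτh] at h3
    linarith
  have hv1 := vol_profile_Icc hK A (by linarith : -(τ * h) ≤ (1 - τ) * h)
    (f := fun t => (1 - τ) - t / h) (by fun_prop) hα0 h1 h2
  have hle : -(1 / (τ * h)) ≤ 1 / ((1 - τ) * h) := by
    have h3 : 0 < 1 / (τ * h) := by positivity
    have h4 : 0 < 1 / ((1 - τ) * h) := by positivity
    linarith
  have hv2 := vol_profile_Icc (isClosed_polarSet K).measurableSet (polarSet A) hle
    (f := fun s => 1 + τ * h * s) (by fun_prop) hβ0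
    (fun s hs => cone_sec_polar hA hh hτ0 hτ1 h1 h2 hs)
    (fun s hs => cone_sec_polar_empty hA hh hτ0 hτ1 h1 hs)
  rw [hv1, hv2, cone_integral_one n hh, cone_integral_two n hh hτ0 hτ1]
  have e : ENNReal.ofReal (1 / (((n : ℝ) + 1) ^ 2 * τ * (1 - τ) ^ (n + 1)))
      = ENNReal.ofReal (h / ((n : ℝ) + 1))
        * ENNReal.ofReal ((1 / (1 - τ)) ^ (n + 1) / (((n : ℝ) + 1) * (τ * h))) := by
    rw [← ENNReal.ofReal_mul (by positivity)]
    congr 1
    field_simp
    rw [← mul_pow, mul_one_div_cancel h1τ.ne', one_pow]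
  rw [e]
  ring

end Vale.Agent.Lib.P248.H20Q2
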