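import Mathlib
import Vale.Agent.Lib.P248.helper20.ConeAssembly
import Vale.Agent.Lib.P248.helper77.ConeVolMeas
import Vale.Agent.Lib.P248.helper61.ShearVol
import Vale.Agent.Lib.P248.helper43.ShearPolar
import Vale.Agent.Lib.P248.helper81.ModelVol
import Vale.Agent.Lib.P248.helper93.ConeInterior
import Vale.Agent.Lib.P248.helper93.TauAmgm

/-!
# P248 (helper20): the cone inequality for the volume product, from the pool leaves

`c_n * P(D) ≤ P(cone over D)` with `c_n = (n+2)^(n+2) / (n+1)^(n+3)`, for a compact base `D`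
and, more generally, for any base `D` whose cone is a measurable set.
-/

namespace Vale.Agent.Lib.P248.H20A

open MeasureTheory Set
open scoped ENNReal
open Vale.Agent.Lib.P227 Vale.Agent.Lib.P248.H1

/-- The cone inequality when the cone is a measurable set. -/
theorem volProd_cone_ge_of_measurable {n : ℕ} (D : Set (EuclideanSpace ℝ (Fin n)))
    (c : EuclideanSpace ℝ (Fin n)) (h : ℝ) (hh : 0 < h)
    (hK : MeasurableSet (cone D c h)) :
    ENNReal.ofReal (((n : ℝ) + 2) ^ (n + 2) / ((n : ℝ) + 1) ^ (n + 3)) * volProd D ≤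
      volProd (cone D c h) :=
  volProd_cone_ge_of_leaves D c h hh
    (H77.vol_cone_ge_of_measurable D c h hh (cone_eq_coneE D c h ▸ hK))
    (fun v S hS => H61.shear_preimage v h hh S hS)
    (fun ζ τ h0 h1 => H43.shear_preimage_subset_polar D c ζ h τ hh h0 h1)
    (fun ζ τ => H81.measurableSet_polarModel D ζ τ)
    (fun ζ τ h0 h1 => H81.vol_polarModel_ge D ζ τ h0 h1)
    (fun z hz => H93.interior_coneE D c h hh z hz)
    (fun τ h0 h1 => H93.tau_amgm n τ h0 h1)

/-- The cone inequality for a compact base. -/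
theorem volProd_cone_ge {n : ℕ} (D : Set (EuclideanSpace ℝ (Fin n))) (hD : IsCompact D)
    (c : EuclideanSpace ℝ (Fin n)) (h : ℝ) (hh : 0 < h) :
    ENNReal.ofReal (((n : ℝ) + 2) ^ (n + 2) / ((n : ℝ) + 1) ^ (n + 3)) * volProd D ≤
      volProd (cone D c h) :=
  volProd_cone_ge_of_leaves D c h hh (H77.vol_cone_ge D hD c h hh)
    (fun v S hS => H61.shear_preimage v h hh S hS)
    (fun ζ τ h0 h1 => H43.shear_preimage_subset_polar D c ζ h τ hh h0 h1)
    (fun ζ τ => H81.measurableSet_polarModel D ζ τ)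
    (fun ζ τ h0 h1 => H81.vol_polarModel_ge D ζ τ h0 h1)
    (fun z hz => H93.interior_coneE D c h hh z hz)
    (fun τ h0 h1 => H93.tau_amgm n τ h0 h1)

end Vale.Agent.Lib.P248.H20A
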