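import Mathlib
import Vale.Agent.Lib.P248.helper20.ConeCore

/-!
# P248 (helper20): shears and shifts preserve the volumes used for the cone theorem
-/

namespace Vale.Agent.Lib.P248.H20Q2

open MeasureTheory Set
open scoped ENNReal Pointwise
open Vale.Agent.Lib.P227 Vale.Agent.Lib.P248.H20

theorem continuous_coord_zero (n : ℕ) :
    Continuous (fun p : EuclideanSpace ℝ (Fin (n + 1)) => p 0) :=
  (EuclideanSpace.proj (0 : Fin (n + 1))).continuous

/-- Slicing by the lines parallel to the first coordinate axis. -/
theorem vol_eq_lintegral_fibre {n : ℕ} {S : Set (EuclideanSpace ℝ (Fin (n + 1)))}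
    (hS : MeasurableSet S) :
    volume S = ∫⁻ η : EuclideanSpace ℝ (Fin n), volume {s : ℝ | ecomb s η ∈ S} := by
  have hΦ := measurePreserving_ecomb n
  rw [← hΦ.measure_preimage hS.nullMeasurableSet, Measure.prod_apply_symm (hΦ.measurable hS)]
  rfl

/-- A shear along the first coordinate preserves volume. -/
theorem vol_shear {n : ℕ} {R : Set (EuclideanSpace ℝ (Fin (n + 1)))} (hR : MeasurableSet R)
    (g : EuclideanSpace ℝ (Fin n) → ℝ) (hg : Continuous g) :
    volume {y : EuclideanSpace ℝ (Fin (n + 1)) | ecomb (y 0 + g (etail y)) (etail y) ∈ R}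
      = volume R := by
  have hcont : Continuous (fun y : EuclideanSpace ℝ (Fin (n + 1)) =>
      ecomb (y 0 + g (etail y)) (etail y)) :=
    continuous_ecomb_prod.comp
      (((continuous_coord_zero n).add (hg.comp continuous_etail)).prodMk continuous_etail)
  have hR' : MeasurableSet {y : EuclideanSpace ℝ (Fin (n + 1)) |
      ecomb (y 0 + g (etail y)) (etail y) ∈ R} := hcont.measurable hR
  rw [vol_eq_lintegral_fibre hR', vol_eq_lintegral_fibre hR]
  refine lintegral_congr (fun η => ?_)
  have e : {s : ℝ | ecomb s η ∈ {y : EuclideanSpace ℝ (Fin (n + 1)) |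
      ecomb (y 0 + g (etail y)) (etail y) ∈ R}}
      = (fun s : ℝ => s + g η) ⁻¹' {s : ℝ | ecomb s η ∈ R} := by
    ext s
    simp only [Set.mem_ofPred_eq, mem_preimage, ecomb_zero, etail_ecomb]
  rw [e, measure_preimage_add_right]

/-- Shifting the height and translating every section preserves volume. -/
theorem vol_shift {n : ℕ} {K : Set (EuclideanSpace ℝ (Fin (n + 1)))} (hK : MeasurableSet K)
    (a : ℝ) (b : ℝ → EuclideanSpace ℝ (Fin n)) (hb : Continuous b) :
    volume {p : EuclideanSpace ℝ (Fin (n + 1)) | ecomb (p 0 + a) (etail p + b (p 0)) ∈ K}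
      = volume K := by
  have hcont : Continuous (fun p : EuclideanSpace ℝ (Fin (n + 1)) =>
      ecomb (p 0 + a) (etail p + b (p 0))) :=
    continuous_ecomb_prod.comp
      (((continuous_coord_zero n).add continuous_const).prodMk
        (continuous_etail.add (hb.comp (continuous_coord_zero n))))
  have hK' : MeasurableSet {p : EuclideanSpace ℝ (Fin (n + 1)) |
      ecomb (p 0 + a) (etail p + b (p 0)) ∈ K} := hcont.measurable hK
  rw [volume_eq_lintegral_sec hK', volume_eq_lintegral_sec hK,
    ← lintegral_add_right_eq_self (fun t => volume (sec t K)) a]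
  refine lintegral_congr (fun t => ?_)
  have e : sec t {p : EuclideanSpace ℝ (Fin (n + 1)) |
      ecomb (p 0 + a) (etail p + b (p 0)) ∈ K}
      = (fun x : EuclideanSpace ℝ (Fin n) => x + b t) ⁻¹' (sec (t + a) K) := by
    ext x
    simp only [sec, Set.mem_ofPred_eq, mem_preimage, ecomb_zero, etail_ecomb]
  rw [e, measure_preimage_add_right]

end Vale.Agent.Lib.P248.H20Q2
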