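import Mathlib

/-!
# One-variable part of the volume-product inequality for bodies with homothetic sections

* `cone_ineq`: for a concave, non-increasing, non-negative `f` on `[0, H]`,
  `t0 * f 0 ^ (m+1) + (m+1) * f t0 * ∫ f ^ m ≤ (m+2) * ∫ f ^ (m+1)`.
* `polarProfile`: the profile of the polar body, `b τ = inf (1 - t τ) / a t`.
* `profile_ineq`: `1 / (n+1) ≤ (∫_0^h a ^ n) * (∫_0^{1/h} b ^ n)`.
-/

namespace Vale.Agent.Lib.P248.H20

open MeasureTheory Set intervalIntegral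

theorem pow_succ_sub_ge (m : ℕ) {x y : ℝ} (hy : 0 ≤ y) (hxy : y ≤ x) :
    ((m : ℝ) + 1) * (x - y) * y ^ m ≤ x ^ (m + 1) - y ^ (m + 1) := by
  induction m with
  | zero => simp
  | succ m ih =>
    have h1 : 0 ≤ x ^ (m + 1) - y ^ (m + 1) := sub_nonneg.2 (pow_le_pow_left₀ hy hxy _)
    have h2 : y * (x ^ (m + 1) - y ^ (m + 1)) ≤ x * (x ^ (m + 1) - y ^ (m + 1)) :=
      mul_le_mul_of_nonneg_right hxy h1
    have h3 : y * (((m : ℝ) + 1) * (x - y) * y ^ m) ≤ y * (x ^ (m + 1) - y ^ (m + 1)) :=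
      mul_le_mul_of_nonneg_left ih hy
    have e1 : x ^ (m + 1 + 1) - y ^ (m + 1 + 1)
        = x * (x ^ (m + 1) - y ^ (m + 1)) + (x - y) * y ^ (m + 1) := by ring
    have e2 : (((m + 1 : ℕ) : ℝ) + 1) * (x - y) * y ^ (m + 1)
        = y * (((m : ℝ) + 1) * (x - y) * y ^ m) + (x - y) * y ^ (m + 1) := by
      push_cast
      ring
    rw [e1, e2]
    linarith

theorem antitoneOn_pow {g : ℝ → ℝ} {s : Set ℝ} (hg : AntitoneOn g s) (h0 : ∀ x ∈ s, 0 ≤ g x)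
    (k : ℕ) : AntitoneOn (fun x => g x ^ k) s :=
  fun _ hx y hy hxy => pow_le_pow_left₀ (h0 y hy) (hg hx hy hxy) k

section Cone

variable {f : ℝ → ℝ} {H : ℝ}

theorem conc_point (hconc : ConcaveOn ℝ (Icc 0 H) f) {ε t0 u : ℝ} (hε0 : 0 ≤ ε) (hε1 : ε ≤ 1)
    (ht0 : t0 ∈ Icc 0 H) (hu : u ∈ Icc 0 H) :
    (1 - ε) * u + ε * t0 ∈ Icc 0 H ∧ ε * f t0 + (1 - ε) * f u ≤ f ((1 - ε) * u + ε * t0) := by
  have h1 : ε • t0 + (1 - ε) • u ∈ Icc 0 H :=
    hconc.1 ht0 hu hε0 (by linarith) (by ring)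
  have h2 := hconc.2 ht0 hu hε0 (by linarith : (0 : ℝ) ≤ 1 - ε) (by ring)
  simp only [smul_eq_mul] at h1 h2
  have e : (1 - ε) * u + ε * t0 = ε * t0 + (1 - ε) * u := by ring
  rw [e]
  exact ⟨h1, h2⟩

/-- Substitution step. -/
theorem subst_ineq (hH : 0 < H) (hconc : ConcaveOn ℝ (Icc 0 H) f)
    (hanti : AntitoneOn f (Icc 0 H)) (hnn : ∀ t ∈ Icc 0 H, 0 ≤ f t)
    {ε t0 : ℝ} (hε0 : 0 < ε) (hε1 : ε < 1) (ht0 : t0 ∈ Icc 0 H) (k : ℕ) :
    (1 - ε) ^ (k + 1) * ∫ u in (0 : ℝ)..H, f u ^ k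
      ≤ ∫ t in (ε * t0)..(ε * t0 + (1 - ε) * H), (f t - ε * f t0) ^ k := by
  have hl : 0 < 1 - ε := by linarith
  have hsub := integral_comp_mul_add (a := 0) (b := H)
    (fun t => (f t - ε * f t0) ^ k) hl.ne' (ε * t0)
  have key : ∀ u ∈ Icc 0 H, (1 - ε) * u + ε * t0 ∈ Icc 0 H ∧
      (1 - ε) * f u ≤ f ((1 - ε) * u + ε * t0) - ε * f t0 := by
    intro u hu
    obtain ⟨h1, h2⟩ := conc_point hconc hε0.le hε1.le ht0 hu
    exact ⟨h1, by linarith⟩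
  have hg1 : AntitoneOn (fun u => (1 - ε) * f u) (Icc 0 H) :=
    fun x hx y hy hxy => mul_le_mul_of_nonneg_left (hanti hx hy hxy) hl.le
  have hg1n : ∀ u ∈ Icc 0 H, 0 ≤ (1 - ε) * f u := fun u hu => mul_nonneg hl.le (hnn u hu)
  have hg2 : AntitoneOn (fun u => f ((1 - ε) * u + ε * t0) - ε * f t0) (Icc 0 H) := by
    intro x hx y hy hxy
    have := hanti (key x hx).1 (key y hy).1 (by nlinarith)
    simp only
    linarith
  have hg2n : ∀ u ∈ Icc 0 H, 0 ≤ f ((1 - ε) * u + ε * t0) - ε * f t0 :=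
    fun u hu => (hg1n u hu).trans (key u hu).2
  have hmono : (∫ u in (0 : ℝ)..H, ((1 - ε) * f u) ^ k)
      ≤ ∫ u in (0 : ℝ)..H, (f ((1 - ε) * u + ε * t0) - ε * f t0) ^ k := by
    refine integral_mono_on hH.le ?_ ?_ ?_
    · apply AntitoneOn.intervalIntegrable
      rw [uIcc_of_le hH.le]
      exact antitoneOn_pow hg1 hg1n k
    · apply AntitoneOn.intervalIntegrable
      rw [uIcc_of_le hH.le]
      exact antitoneOn_pow hg2 hg2n k
    · intro u hu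
      exact pow_le_pow_left₀ (hg1n u hu) (key u hu).2 k
  have e1 : (∫ u in (0 : ℝ)..H, ((1 - ε) * f u) ^ k)
      = (1 - ε) ^ k * ∫ u in (0 : ℝ)..H, f u ^ k := by
    rw [← intervalIntegral.integral_const_mul]
    congr 1
    funext u
    rw [mul_pow]
  rw [e1, hsub] at hmono
  have e2 : (1 - ε) * 0 + ε * t0 = ε * t0 := by ring
  have e3 : (1 - ε) * H + ε * t0 = ε * t0 + (1 - ε) * H := by ring
  rw [e2, e3, smul_eq_mul] at hmono
  have := mul_le_mul_of_nonneg_left hmono hl.le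
  rw [← mul_assoc, ← mul_assoc, mul_inv_cancel₀ hl.ne', one_mul] at this
  calc (1 - ε) ^ (k + 1) * ∫ u in (0 : ℝ)..H, f u ^ k
      = (1 - ε) * (1 - ε) ^ k * ∫ u in (0 : ℝ)..H, f u ^ k := by rw [pow_succ']
    _ ≤ _ := this

/-- The cone inequality, for a fixed `ε`. -/
theorem cone_eps (hH : 0 < H) (hconc : ConcaveOn ℝ (Icc 0 H) f)
    (hanti : AntitoneOn f (Icc 0 H)) (hnn : ∀ t ∈ Icc 0 H, 0 ≤ f t)
    {ε t0 : ℝ} (hε0 : 0 < ε) (hε1 : ε < 1) (ht0 : t0 ∈ Icc 0 H) (m : ℕ) :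
    ε * (1 - ε) ^ (m + 1) *
        (t0 * f 0 ^ (m + 1) + ((m : ℝ) + 1) * f t0 * ∫ t in (0 : ℝ)..H, f t ^ m)
      ≤ (1 - (1 - ε) ^ (m + 2)) * ∫ t in (0 : ℝ)..H, f t ^ (m + 1) := by
  have hl : 0 < 1 - ε := by linarith
  set a1 : ℝ := ε * t0 with ha1
  set a2 : ℝ := ε * t0 + (1 - ε) * H with ha2
  have h0a1 : 0 ≤ a1 := mul_nonneg hε0.le ht0.1
  have ha12 : a1 ≤ a2 := by
    have : 0 ≤ (1 - ε) * H := mul_nonneg hl.le hH.le
    linarith
  have ha2H : a2 ≤ H := by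
    have : ε * t0 ≤ ε * H := mul_le_mul_of_nonneg_left ht0.2 hε0.le
    rw [ha2]
    linarith
  have h0 : (0 : ℝ) ∈ Icc 0 H := ⟨le_refl _, hH.le⟩
  have ha1mem : a1 ∈ Icc 0 H := ⟨h0a1, ha12.trans ha2H⟩
  have hF : AntitoneOn (fun t => f t ^ (m + 1)) (Icc 0 H) := antitoneOn_pow hanti hnn _
  have hFint : ∀ {c d : ℝ}, 0 ≤ c → c ≤ d → d ≤ H →
      IntervalIntegrable (fun t => f t ^ (m + 1)) volume c d := by
    intro c d hc hcd hd
    apply AntitoneOn.intervalIntegrable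
    rw [uIcc_of_le hcd]
    exact hF.mono (Icc_subset_Icc hc hd)
  -- the three pieces
  have hsplit : (∫ t in (0 : ℝ)..H, f t ^ (m + 1))
      = (∫ t in (0 : ℝ)..a1, f t ^ (m + 1)) + (∫ t in a1..a2, f t ^ (m + 1))
        + ∫ t in a2..H, f t ^ (m + 1) := by
    rw [integral_add_adjacent_intervals (hFint le_rfl h0a1 (ha12.trans ha2H))
        (hFint h0a1 ha12 ha2H),
      integral_add_adjacent_intervals (hFint le_rfl (h0a1.trans ha12) ha2H)
        (hFint (h0a1.trans ha12) ha2H le_rfl)]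
  -- first piece
  have hfa1 : (1 - ε) * f 0 ≤ f a1 := by
    obtain ⟨_, h2⟩ := conc_point hconc hε0.le hε1.le ht0 h0
    have e : (1 - ε) * 0 + ε * t0 = a1 := by rw [ha1]; ring
    rw [e] at h2
    have := mul_nonneg hε0.le (hnn t0 ht0)
    linarith
  have p1 : a1 * ((1 - ε) * f 0) ^ (m + 1) ≤ ∫ t in (0 : ℝ)..a1, f t ^ (m + 1) := by
    have hc : (∫ _t in (0 : ℝ)..a1, ((1 - ε) * f 0) ^ (m + 1)) = a1 * ((1 - ε) * f 0) ^ (m + 1) := by
      rw [intervalIntegral.integral_const, sub_zero, smul_eq_mul]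
    rw [← hc]
    refine integral_mono_on h0a1 intervalIntegrable_const (hFint le_rfl h0a1 (ha12.trans ha2H)) ?_
    intro t ht
    have htm : t ∈ Icc 0 H := ⟨ht.1, ht.2.trans (ha12.trans ha2H)⟩
    exact pow_le_pow_left₀ (mul_nonneg hl.le (hnn 0 h0)) (hfa1.trans (hanti htm ha1mem ht.2)) _
  -- third piece
  have p3 : 0 ≤ ∫ t in a2..H, f t ^ (m + 1) := by
    refine intervalIntegral.integral_nonneg ha2H ?_
    intro t ht
    exact pow_nonneg (hnn t ⟨(h0a1.trans ha12).trans ht.1, ht.2⟩) _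
  -- middle piece
  have hmid : ∀ t ∈ Icc a1 a2, t ∈ Icc 0 H ∧ 0 ≤ f t - ε * f t0 := by
    intro t ht
    have hu : (t - a1) / (1 - ε) ∈ Icc 0 H := by
      constructor
      · exact div_nonneg (by linarith [ht.1]) hl.le
      · rw [div_le_iff₀ hl]
        have := ht.2
        rw [ha2] at this
        linarith
    obtain ⟨h1, h2⟩ := conc_point hconc hε0.le hε1.le ht0 hu
    have e : (1 - ε) * ((t - a1) / (1 - ε)) + ε * t0 = t := by
      rw [mul_div_cancel₀ _ hl.ne', ha1]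
      ring
    rw [e] at h1 h2
    have := mul_nonneg hl.le (hnn _ hu)
    exact ⟨h1, by linarith⟩
  have hGk : ∀ k : ℕ, IntervalIntegrable (fun t => (f t - ε * f t0) ^ k) volume a1 a2 := by
    intro k
    apply AntitoneOn.intervalIntegrable
    rw [uIcc_of_le ha12]
    refine antitoneOn_pow ?_ (fun t ht => (hmid t ht).2) k
    intro x hx y hy hxy
    have := hanti (hmid x hx).1 (hmid y hy).1 hxy
    simp only
    linarith
  have p2 : (∫ t in a1..a2, (f t - ε * f t0) ^ (m + 1))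
        + ((m : ℝ) + 1) * (ε * f t0) * (∫ t in a1..a2, (f t - ε * f t0) ^ m)
      ≤ ∫ t in a1..a2, f t ^ (m + 1) := by
    rw [← intervalIntegral.integral_const_mul, ← intervalIntegral.integral_add (hGk _)
      ((hGk _).const_mul _)]
    refine integral_mono_on ha12 ((hGk _).add ((hGk _).const_mul _)) (hFint h0a1 ha12 ha2H) ?_
    intro t ht
    have h1 := pow_succ_sub_ge m (hmid t ht).2 (by
      have := mul_nonneg hε0.le (hnn t0 ht0)
      linarith : f t - ε * f t0 ≤ f t)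
    have e : f t - (f t - ε * f t0) = ε * f t0 := by ring
    rw [e] at h1
    linarith
  have s1 := subst_ineq hH hconc hanti hnn hε0 hε1 ht0 (m + 1)
  have s2 := subst_ineq hH hconc hanti hnn hε0 hε1 ht0 m
  rw [← ha1, ← ha2] at s1 s2
  have s2' : ((m : ℝ) + 1) * (ε * f t0) * ((1 - ε) ^ (m + 1) * ∫ u in (0 : ℝ)..H, f u ^ m)
      ≤ ((m : ℝ) + 1) * (ε * f t0) * ∫ t in a1..a2, (f t - ε * f t0) ^ m :=
    mul_le_mul_of_nonneg_left s2
      (mul_nonneg (by positivity) (mul_nonneg hε0.le (hnn t0 ht0)))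
  have e4 : a1 * ((1 - ε) * f 0) ^ (m + 1) = ε * (1 - ε) ^ (m + 1) * (t0 * f 0 ^ (m + 1)) := by
    rw [ha1, mul_pow]
    ring
  have e5 : (1 - ε) ^ (m + 1 + 1) = (1 - ε) ^ (m + 2) := rfl
  rw [e5] at s1
  rw [e4] at p1
  linarith [p1, p2, p3, s1, s2', hsplit]

/-- The cone inequality. -/
theorem cone_ineq (hH : 0 < H) (hconc : ConcaveOn ℝ (Icc 0 H) f)
    (hanti : AntitoneOn f (Icc 0 H)) (hnn : ∀ t ∈ Icc 0 H, 0 ≤ f t)
    {t0 : ℝ} (ht0 : t0 ∈ Icc 0 H) (m : ℕ) :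
    t0 * f 0 ^ (m + 1) + ((m : ℝ) + 1) * f t0 * ∫ t in (0 : ℝ)..H, f t ^ m
      ≤ ((m : ℝ) + 2) * ∫ t in (0 : ℝ)..H, f t ^ (m + 1) := by
  set I := ∫ t in (0 : ℝ)..H, f t ^ (m + 1) with hI
  set J := ∫ t in (0 : ℝ)..H, f t ^ m with hJ
  set Q := t0 * f 0 ^ (m + 1) + ((m : ℝ) + 1) * f t0 * J with hQ
  have h0 : (0 : ℝ) ∈ Icc 0 H := ⟨le_refl _, hH.le⟩
  have hI0 : 0 ≤ I := intervalIntegral.integral_nonneg hH.le fun t ht => pow_nonneg (hnn t ht) _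
  have hJ0 : 0 ≤ J := intervalIntegral.integral_nonneg hH.le fun t ht => pow_nonneg (hnn t ht) _
  have hQ0 : 0 ≤ Q :=
    add_nonneg (mul_nonneg ht0.1 (pow_nonneg (hnn 0 h0) _))
      (mul_nonneg (mul_nonneg (by positivity) (hnn t0 ht0)) hJ0)
  have step : ∀ ε : ℝ, 0 < ε → ε < 1 → (1 - ((m : ℝ) + 1) * ε) * Q ≤ ((m : ℝ) + 2) * I := by
    intro ε hε0 hε1
    have hc := cone_eps hH hconc hanti hnn hε0 hε1 ht0 m
    have b1 : 1 + ((m + 1 : ℕ) : ℝ) * (-ε) ≤ (1 + -ε) ^ (m + 1) :=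
      one_add_mul_le_pow (by linarith) _
    have b2 : 1 + ((m + 2 : ℕ) : ℝ) * (-ε) ≤ (1 + -ε) ^ (m + 2) :=
      one_add_mul_le_pow (by linarith) _
    have e : (1 : ℝ) + -ε = 1 - ε := by ring
    rw [e] at b1 b2
    push_cast at b1 b2
    have h1 : ε * (1 - ((m : ℝ) + 1) * ε) * Q ≤ ε * (1 - ε) ^ (m + 1) * Q := by
      refine mul_le_mul_of_nonneg_right ?_ hQ0
      refine mul_le_mul_of_nonneg_left ?_ hε0.le
      linarith
    have h2 : (1 - (1 - ε) ^ (m + 2)) * I ≤ ((m : ℝ) + 2) * ε * I := by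
      refine mul_le_mul_of_nonneg_right ?_ hI0
      linarith
    have h3 : ε * ((1 - ((m : ℝ) + 1) * ε) * Q) ≤ ε * (((m : ℝ) + 2) * I) := by
      calc ε * ((1 - ((m : ℝ) + 1) * ε) * Q) = ε * (1 - ((m : ℝ) + 1) * ε) * Q := by ring
        _ ≤ ε * (1 - ε) ^ (m + 1) * Q := h1
        _ ≤ (1 - (1 - ε) ^ (m + 2)) * I := hc
        _ ≤ ((m : ℝ) + 2) * ε * I := h2
        _ = ε * (((m : ℝ) + 2) * I) := by ring
    exact le_of_mul_le_mul_left h3 hε0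
  refine le_of_forall_pos_le_add fun δ hδ => ?_
  have hden : 0 < ((m : ℝ) + 1) * Q + 1 := by positivity
  set ε := min (1 / 2) (δ / (((m : ℝ) + 1) * Q + 1)) with hε
  have hε0 : 0 < ε := lt_min (by norm_num) (div_pos hδ hden)
  have hε1 : ε < 1 := lt_of_le_of_lt (min_le_left _ _) (by norm_num)
  have hε2 : ε ≤ δ / (((m : ℝ) + 1) * Q + 1) := min_le_right _ _
  have h4 := step ε hε0 hε1
  have h5 : ((m : ℝ) + 1) * ε * Q ≤ δ := by
    have h6 : ε * (((m : ℝ) + 1) * Q + 1) ≤ δ := by rwa [le_div_iff₀ hden] at hε2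
    nlinarith
  linarith

end Cone

/-- The profile of the polar body: `b τ = inf {(1 - t τ) / a t : 0 ≤ t ≤ h, a t > 0}`. -/
noncomputable def polarProfile (a : ℝ → ℝ) (h τ : ℝ) : ℝ :=
  sInf ((fun t => (1 - t * τ) / a t) '' {t | t ∈ Icc 0 h ∧ 0 < a t})

section Polar

variable {a : ℝ → ℝ} {h : ℝ}

theorem pp_nonempty (hh : 0 < h) (ha0 : 0 < a 0) (τ : ℝ) :
    ((fun t => (1 - t * τ) / a t) '' {t | t ∈ Icc 0 h ∧ 0 < a t}).Nonempty :=
  ⟨_, ⟨0, ⟨⟨le_refl _, hh.le⟩, ha0⟩, rfl⟩⟩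

theorem pp_elem_nonneg (hh : 0 < h) {τ : ℝ} (hτ : τ ∈ Icc 0 (1 / h)) :
    ∀ c ∈ (fun t => (1 - t * τ) / a t) '' {t | t ∈ Icc 0 h ∧ 0 < a t}, 0 ≤ c := by
  rintro c ⟨t, ⟨ht, hat⟩, rfl⟩
  refine div_nonneg ?_ hat.le
  have h1 : t * τ ≤ h * (1 / h) := mul_le_mul ht.2 hτ.2 hτ.1 hh.le
  rw [mul_one_div_cancel hh.ne'] at h1
  linarith

theorem pp_le (hh : 0 < h) {τ : ℝ} (hτ : τ ∈ Icc 0 (1 / h)) {t : ℝ} (ht : t ∈ Icc 0 h)
    (hat : 0 < a t) : polarProfile a h τ ≤ (1 - t * τ) / a t :=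
  csInf_le ⟨0, pp_elem_nonneg hh hτ⟩ ⟨t, ⟨ht, hat⟩, rfl⟩

theorem le_pp (hh : 0 < h) (ha0 : 0 < a 0) {τ x : ℝ}
    (hx : ∀ t ∈ Icc 0 h, 0 < a t → x ≤ (1 - t * τ) / a t) : x ≤ polarProfile a h τ := by
  refine le_csInf (pp_nonempty hh ha0 τ) ?_
  rintro c ⟨t, ⟨ht, hat⟩, rfl⟩
  exact hx t ht hat

theorem pp_nonneg (hh : 0 < h) (ha0 : 0 < a 0) {τ : ℝ} (hτ : τ ∈ Icc 0 (1 / h)) :
    0 ≤ polarProfile a h τ :=
  le_csInf (pp_nonempty hh ha0 τ) (pp_elem_nonneg hh hτ)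

theorem pp_zero (hh : 0 < h) (hanti : AntitoneOn a (Icc 0 h)) (ha0 : 0 < a 0) :
    polarProfile a h 0 = 1 / a 0 := by
  have h0 : (0 : ℝ) ∈ Icc 0 h := ⟨le_refl _, hh.le⟩
  apply le_antisymm
  · have := pp_le (a := a) hh (τ := 0) ⟨le_refl _, by positivity⟩ h0 ha0
    simpa using this
  · apply le_pp hh ha0
    intro t ht hat
    rw [mul_zero, sub_zero]
    exact one_div_le_one_div_of_le hat (hanti h0 ht ht.1)

theorem pp_antitone (hh : 0 < h) (ha0 : 0 < a 0) :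
    AntitoneOn (polarProfile a h) (Icc 0 (1 / h)) := by
  intro τ1 _ τ2 h2 h12
  apply le_pp hh ha0
  intro t ht hat
  refine (pp_le hh h2 ht hat).trans ?_
  refine div_le_div_of_nonneg_right ?_ hat.le
  have := mul_le_mul_of_nonneg_left h12 ht.1
  linarith

theorem pp_concave (hh : 0 < h) (ha0 : 0 < a 0) :
    ConcaveOn ℝ (Icc 0 (1 / h)) (polarProfile a h) := by
  refine ⟨convex_Icc _ _, ?_⟩
  intro τ1 h1 τ2 h2 α β hα hβ hαβ
  simp only [smul_eq_mul]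
  apply le_pp hh ha0
  intro t ht hat
  have e0 : 1 - t * (α * τ1 + β * τ2) = α * (1 - t * τ1) + β * (1 - t * τ2) := by
    linear_combination (-1 : ℝ) * hαβ
  rw [e0, add_div, mul_div_assoc, mul_div_assoc]
  exact add_le_add (mul_le_mul_of_nonneg_left (pp_le hh h1 ht hat) hα)
    (mul_le_mul_of_nonneg_left (pp_le hh h2 ht hat) hβ)

/-- The one-variable inequality behind the volume product of bodies with homothetic
sections. -/
theorem profile_ineq (hh : 0 < h) (hconc : ConcaveOn ℝ (Icc 0 h) a)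
    (hanti : AntitoneOn a (Icc 0 h)) (hnn : ∀ t ∈ Icc 0 h, 0 ≤ a t) (ha0 : 0 < a 0) (n : ℕ) :
    1 / ((n : ℝ) + 1)
      ≤ (∫ t in (0 : ℝ)..h, a t ^ n) * ∫ τ in (0 : ℝ)..(1 / h), polarProfile a h τ ^ n := by
  have hH' : 0 < 1 / h := by positivity
  induction n with
  | zero =>
    simp only [pow_zero, intervalIntegral.integral_const, sub_zero, smul_eq_mul, mul_one,
      Nat.cast_zero, zero_add]
    rw [mul_one_div_cancel hh.ne']
    norm_num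
  | succ n ih =>
    set b := polarProfile a h with hb
    set Ia := ∫ t in (0 : ℝ)..h, a t ^ n with hIa
    set Ia' := ∫ t in (0 : ℝ)..h, a t ^ (n + 1) with hIa'
    set Ib := ∫ τ in (0 : ℝ)..(1 / h), b τ ^ n with hIb
    set Ib' := ∫ τ in (0 : ℝ)..(1 / h), b τ ^ (n + 1) with hIb'
    have hbnn : ∀ τ ∈ Icc 0 (1 / h), 0 ≤ b τ := fun τ hτ => pp_nonneg hh ha0 hτ
    have hb0 : b 0 = 1 / a 0 := pp_zero hh hanti ha0
    have ca : ∀ t0 ∈ Icc 0 h, t0 * a 0 ^ (n + 1) + ((n : ℝ) + 1) * a t0 * Ia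
        ≤ ((n : ℝ) + 2) * Ia' := fun t0 ht0 => cone_ineq hh hconc hanti hnn ht0 n
    have cb : ∀ τ0 ∈ Icc 0 (1 / h), τ0 * b 0 ^ (n + 1) + ((n : ℝ) + 1) * b τ0 * Ib
        ≤ ((n : ℝ) + 2) * Ib' :=
      fun τ0 hτ0 => cone_ineq hH' (pp_concave hh ha0) (pp_antitone hh ha0) hbnn hτ0 n
    have hIa0 : 0 ≤ Ia :=
      intervalIntegral.integral_nonneg hh.le fun t ht => pow_nonneg (hnn t ht) _
    have hIb0 : 0 ≤ Ib :=
      intervalIntegral.integral_nonneg hH'.le fun t ht => pow_nonneg (hbnn t ht) _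
    have hhm : h ∈ Icc 0 h := ⟨hh.le, le_rfl⟩
    have hIa'pos : 0 < Ia' := by
      have h1 := ca h hhm
      have h2 : 0 < h * a 0 ^ (n + 1) := by positivity
      have h3 : 0 ≤ ((n : ℝ) + 1) * a h * Ia :=
        mul_nonneg (mul_nonneg (by positivity) (hnn h hhm)) hIa0
      have h4 : 0 < ((n : ℝ) + 2) * Ia' := by linarith
      by_contra hneg
      have h5 : Ia' ≤ 0 := not_lt.1 hneg
      have h6 := mul_nonneg (by positivity : (0 : ℝ) ≤ (n : ℝ) + 2) (neg_nonneg.2 h5)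
      linarith
    set D := ((n : ℝ) + 2) * Ia' with hD
    have hDpos : 0 < D := by positivity
    set X1 := a 0 ^ (n + 1) / D with hX1def
    set X2 := ((n : ℝ) + 1) * Ia / D with hX2def
    have hX : ∀ t0 ∈ Icc 0 h, t0 * X1 + a t0 * X2 ≤ 1 := by
      intro t0 ht0
      have e : t0 * X1 + a t0 * X2 = (t0 * a 0 ^ (n + 1) + ((n : ℝ) + 1) * a t0 * Ia) / D := by
        rw [hX1def, hX2def]
        field_simp
      rw [e, div_le_one hDpos]
      exact ca t0 ht0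
    have hX2n : 0 ≤ X2 := by positivity
    have hX1 : X1 ∈ Icc 0 (1 / h) := by
      constructor
      · positivity
      · have h1 := hX h hhm
        have h2 : 0 ≤ a h * X2 := mul_nonneg (hnn h hhm) hX2n
        rw [le_div_iff₀ hh]
        linarith
    have hX2 : X2 ≤ b X1 := by
      apply le_pp hh ha0
      intro t ht hat
      rw [le_div_iff₀ hat]
      have := hX t ht
      linarith
    have h6 : X1 * b 0 ^ (n + 1) + ((n : ℝ) + 1) * X2 * Ib ≤ ((n : ℝ) + 2) * Ib' := by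
      have h7 : ((n : ℝ) + 1) * X2 * Ib ≤ ((n : ℝ) + 1) * b X1 * Ib :=
        mul_le_mul_of_nonneg_right (mul_le_mul_of_nonneg_left hX2 (by positivity)) hIb0
      linarith [cb X1 hX1]
    have h7 : a 0 ^ (n + 1) * b 0 ^ (n + 1) + ((n : ℝ) + 1) ^ 2 * (Ia * Ib)
        ≤ ((n : ℝ) + 2) ^ 2 * (Ia' * Ib') := by
      have h8 := mul_le_mul_of_nonneg_left h6 hDpos.le
      have e1 : D * (X1 * b 0 ^ (n + 1) + ((n : ℝ) + 1) * X2 * Ib)
          = a 0 ^ (n + 1) * b 0 ^ (n + 1) + ((n : ℝ) + 1) ^ 2 * (Ia * Ib) := by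
        rw [hX1def, hX2def]
        field_simp
      have e2 : D * (((n : ℝ) + 2) * Ib') = ((n : ℝ) + 2) ^ 2 * (Ia' * Ib') := by
        rw [hD]
        ring
      linarith
    have h8 : a 0 ^ (n + 1) * b 0 ^ (n + 1) = 1 := by
      rw [← mul_pow, hb0, mul_one_div_cancel ha0.ne', one_pow]
    have h9 : (n : ℝ) + 1 ≤ ((n : ℝ) + 1) ^ 2 * (Ia * Ib) := by
      have h10 := mul_le_mul_of_nonneg_left ih (by positivity : (0 : ℝ) ≤ ((n : ℝ) + 1) ^ 2)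
      have e : ((n : ℝ) + 1) ^ 2 * (1 / ((n : ℝ) + 1)) = (n : ℝ) + 1 := by
        field_simp
      linarith
    have h10 : ((n : ℝ) + 2) * 1 ≤ ((n : ℝ) + 2) * (((n : ℝ) + 2) * (Ia' * Ib')) := by
      nlinarith
    have h11 := le_of_mul_le_mul_left h10 (by positivity : (0 : ℝ) < (n : ℝ) + 2)
    rw [div_le_iff₀ (by positivity)]
    push_cast
    linarith

end Polar

end Vale.Agent.Lib.P248.H20
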