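import Mathlib
import Vale.Agent.Lib.P248.helper20.Transfer
import Vale.Agent.Lib.P248.helper20.Profile

/-!
# The volume product of a body with homothetic parallel sections

If the section of `K` at height `t` is `a |t| • A` for `|t| ≤ h` and empty otherwise, with `a`
concave, non-increasing and non-negative on `[0, h]` and `a 0 > 0`, then
`|K| |K°| ≥ 4 / (n + 1) * |A| |A°|`.
-/

namespace Vale.Agent.Lib.P248.H20

open MeasureTheory Set
open scoped ENNReal Pointwise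
open Vale.Agent.Lib.P227

/-- The volume of a set with a symmetric profile over `B`. -/
theorem vol_profile {n : ℕ} {S : Set (EuclideanSpace ℝ (Fin (n + 1)))} (hS : MeasurableSet S)
    (B : Set (EuclideanSpace ℝ (Fin n))) {H : ℝ} (hH : 0 < H) {f : ℝ → ℝ}
    (hanti : AntitoneOn f (Icc 0 H)) (hnn : ∀ t ∈ Icc 0 H, 0 ≤ f t)
    (h1 : ∀ t : ℝ, |t| ≤ H → sec t S = f |t| • B) (h2 : ∀ t : ℝ, H < |t| → sec t S = ∅) :
    volume S = ENNReal.ofReal (2 * ∫ t in (0 : ℝ)..H, f t ^ n) * volume B := by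
  have hF : Measurable fun t : ℝ => volume (sec t S) := measurable_volume_sec hS
  have hneg : ∀ t : ℝ, sec (-t) S = sec t S := by
    intro t
    by_cases ht : |t| ≤ H
    · rw [h1 t ht, h1 (-t) (by rwa [abs_neg]), abs_neg]
    · rw [h2 t (not_le.1 ht), h2 (-t) (by rw [abs_neg]; exact not_le.1 ht)]
  have hpos : ∀ t ∈ Ioc (0 : ℝ) H,
      volume (sec t S) = ENNReal.ofReal (f t ^ n) * volume B := by
    intro t ht
    have hab : |t| = t := abs_of_pos ht.1
    rw [h1 t (by rw [hab]; exact ht.2), hab, Measure.addHaar_smul, finrank_euclideanSpace_fin,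
      abs_of_nonneg (pow_nonneg (hnn t ⟨ht.1.le, ht.2⟩) _)]
  have hzero : ∀ t ∈ Ioi (0 : ℝ), volume (sec t S) = (Ioc (0 : ℝ) H).indicator
      (fun t => volume (sec t S)) t := by
    intro t ht
    by_cases htH : t ≤ H
    · rw [indicator_of_mem (show t ∈ Ioc (0 : ℝ) H from ⟨ht, htH⟩)]
    · rw [indicator_of_notMem (fun hmem : t ∈ Ioc (0 : ℝ) H => htH hmem.2),
        h2 t (by rw [abs_of_pos ht]; exact not_le.1 htH)]
      simp
  have hint : IntegrableOn (fun t => f t ^ n) (Ioc 0 H) volume := by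
    rw [← intervalIntegrable_iff_integrableOn_Ioc_of_le hH.le]
    apply AntitoneOn.intervalIntegrable
    rw [uIcc_of_le hH.le]
    exact antitoneOn_pow hanti hnn n
  have hX : ∫⁻ t in Ioi (0 : ℝ), volume (sec t S)
      = ENNReal.ofReal (∫ t in (0 : ℝ)..H, f t ^ n) * volume B := by
    have hinter : Ioc (0 : ℝ) H ∩ Ioi 0 = Ioc 0 H := inter_eq_left.2 fun t ht => ht.1
    rw [setLIntegral_congr_fun measurableSet_Ioi hzero, lintegral_indicator measurableSet_Ioc,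
      Measure.restrict_restrict measurableSet_Ioc, hinter,
      setLIntegral_congr_fun measurableSet_Ioc hpos,
      lintegral_mul_const'' _ hint.aemeasurable.ennreal_ofReal,
      intervalIntegral.integral_of_le hH.le,
      ofReal_integral_eq_lintegral_ofReal hint
        ((ae_restrict_iff' measurableSet_Ioc).2
          (Filter.Eventually.of_forall fun t ht => pow_nonneg (hnn t ⟨ht.1.le, ht.2⟩) _))]
  rw [volume_eq_lintegral_sec hS, lintegral_split_neg _ hF]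
  simp only [hneg]
  rw [hX, ENNReal.ofReal_mul (by norm_num : (0 : ℝ) ≤ 2)]
  simp only [ENNReal.ofReal_ofNat]
  ring

/-- The sections of the polar set of a body with profile `a`. -/
theorem sec_polar_profile {n : ℕ} {A : Set (EuclideanSpace ℝ (Fin n))}
    (hA : (0 : EuclideanSpace ℝ (Fin n)) ∈ interior A)
    {K : Set (EuclideanSpace ℝ (Fin (n + 1)))} {h : ℝ} (hh : 0 < h) {a : ℝ → ℝ}
    (hnn : ∀ t ∈ Icc 0 h, 0 ≤ a t) (ha0 : 0 < a 0)
    (h1 : ∀ t : ℝ, |t| ≤ h → sec t K = a |t| • A) (h2 : ∀ t : ℝ, h < |t| → sec t K = ∅)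
    {τ : ℝ} (hτ : |τ| ≤ 1 / h) :
    sec τ (polarSet K) = polarProfile a h |τ| • polarSet A := by
  set P : Set (ℝ × ℝ) := {p | |p.1| ≤ h ∧ p.2 = a |p.1|} with hP
  have habs : ∀ t : ℝ, |t| ≤ h → |t| ∈ Icc 0 h := fun t ht => ⟨abs_nonneg t, ht⟩
  have hτm : |τ| ∈ Icc 0 (1 / h) := ⟨abs_nonneg τ, hτ⟩
  have hP1 : ∀ p ∈ P, 0 ≤ p.2 ∧ sec p.1 K = p.2 • A := by
    rintro p ⟨hp1, hp2⟩
    rw [hp2]
    exact ⟨hnn _ (habs _ hp1), h1 _ hp1⟩
  have hτ1 : ∀ p ∈ P, p.1 * τ ≤ 1 := by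
    rintro p ⟨hp1, _⟩
    have e1 : p.1 * τ ≤ |p.1| * |τ| := by
      rw [← abs_mul]
      exact le_abs_self _
    have e2 : |p.1| * |τ| ≤ h * (1 / h) := mul_le_mul hp1 hτ (abs_nonneg _) hh.le
    rw [mul_one_div_cancel hh.ne'] at e2
    linarith
  have hpos : ∃ p ∈ P, 0 < p.2 :=
    ⟨(0, a 0), ⟨by simp [hh.le], by simp⟩, ha0⟩
  have hP2 : ∀ t : ℝ, (sec t K).Nonempty → ∃ a' : ℝ, (t, a') ∈ P := by
    intro t hne
    by_cases ht : |t| ≤ h
    · exact ⟨a |t|, ht, rfl⟩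
    · rw [h2 t (not_le.1 ht)] at hne
      exact absurd hne not_nonempty_empty
  rw [sec_polarSet_eq hA P hP1 hP2 hτ1 hpos]
  congr 1
  set C1 : Set ℝ := (fun p : ℝ × ℝ => (1 - p.1 * τ) / p.2) '' {p | p ∈ P ∧ 0 < p.2} with hC1
  have hC1ne : C1.Nonempty := by
    obtain ⟨p, hp, hp2⟩ := hpos
    exact ⟨_, ⟨p, ⟨hp, hp2⟩, rfl⟩⟩
  have hC1b : BddBelow C1 := by
    refine ⟨0, ?_⟩
    rintro c ⟨p, ⟨hp, hp2⟩, rfl⟩
    exact div_nonneg (by linarith [hτ1 p hp]) hp2.le
  apply le_antisymm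
  · apply le_pp hh ha0
    intro t ht hat
    by_cases hτs : 0 ≤ τ
    · refine csInf_le hC1b ⟨(t, a t), ⟨⟨?_, ?_⟩, hat⟩, ?_⟩
      · show |t| ≤ h
        rw [abs_of_nonneg ht.1]
        exact ht.2
      · show a t = a |t|
        rw [abs_of_nonneg ht.1]
      · show (1 - t * τ) / a t = (1 - t * |τ|) / a t
        rw [abs_of_nonneg hτs]
    · refine csInf_le hC1b ⟨(-t, a t), ⟨⟨?_, ?_⟩, hat⟩, ?_⟩
      · show |-t| ≤ h
        rw [abs_neg, abs_of_nonneg ht.1]
        exact ht.2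
      · show a t = a |-t|
        rw [abs_neg, abs_of_nonneg ht.1]
      · show (1 - -t * τ) / a t = (1 - t * |τ|) / a t
        rw [abs_of_neg (not_le.1 hτs)]
        ring_nf
  · refine le_csInf hC1ne ?_
    rintro c ⟨p, ⟨⟨hp1, hp2⟩, hp3⟩, rfl⟩
    have hat : 0 < a |p.1| := by
      rw [← hp2]
      exact hp3
    refine (pp_le hh hτm (habs _ hp1) hat).trans ?_
    show (1 - |p.1| * |τ|) / a |p.1| ≤ (1 - p.1 * τ) / p.2
    rw [hp2]
    refine div_le_div_of_nonneg_right ?_ hat.le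
    have e1 : p.1 * τ ≤ |p.1| * |τ| := by
      rw [← abs_mul]
      exact le_abs_self _
    linarith

/-- **The volume product of a body with homothetic parallel sections.** -/
theorem profile_body {n : ℕ} {A : Set (EuclideanSpace ℝ (Fin n))}
    (hA : (0 : EuclideanSpace ℝ (Fin n)) ∈ interior A)
    {K : Set (EuclideanSpace ℝ (Fin (n + 1)))} (hK : MeasurableSet K) {h : ℝ} (hh : 0 < h)
    {a : ℝ → ℝ} (hconc : ConcaveOn ℝ (Icc 0 h) a) (hanti : AntitoneOn a (Icc 0 h))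
    (hnn : ∀ t ∈ Icc 0 h, 0 ≤ a t) (ha0 : 0 < a 0)
    (h1 : ∀ t : ℝ, |t| ≤ h → sec t K = a |t| • A) (h2 : ∀ t : ℝ, h < |t| → sec t K = ∅) :
    ENNReal.ofReal (4 / ((n : ℝ) + 1)) * (volume A * volume (polarSet A))
      ≤ volume K * volume (polarSet K) := by
  have h0A : (0 : EuclideanSpace ℝ (Fin n)) ∈ A := interior_subset hA
  have hH' : 0 < 1 / h := by positivity
  have hhm : h ∈ Icc 0 h := ⟨hh.le, le_rfl⟩
  have vK := vol_profile hK A hh hanti hnn h1 h2
  have hp1 : ∀ τ : ℝ, |τ| ≤ 1 / h → sec τ (polarSet K) = polarProfile a h |τ| • polarSet A :=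
    fun τ hτ => sec_polar_profile hA hh hnn ha0 h1 h2 hτ
  have hp2 : ∀ τ : ℝ, 1 / h < |τ| → sec τ (polarSet K) = ∅ := by
    intro τ hτ
    have hmem : ∀ t : ℝ, |t| ≤ h → (0 : EuclideanSpace ℝ (Fin n)) ∈ sec t K := by
      intro t ht
      rw [h1 t ht]
      exact ⟨0, h0A, smul_zero _⟩
    have hlt : 1 < h * |τ| := by
      have := mul_lt_mul_of_pos_left hτ hh
      rwa [mul_one_div_cancel hh.ne'] at this
    by_cases hτs : 0 ≤ τ
    · refine sec_polarSet_empty ⟨h, hmem h (by rw [abs_of_pos hh]), ?_⟩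
      rwa [abs_of_nonneg hτs] at hlt
    · refine sec_polarSet_empty ⟨-h, hmem (-h) (by rw [abs_neg, abs_of_pos hh]), ?_⟩
      rw [abs_of_neg (not_le.1 hτs)] at hlt
      linarith
  have vP := vol_profile (isClosed_polarSet K).measurableSet (polarSet A) hH'
    (pp_antitone hh ha0) (fun τ hτ => pp_nonneg hh ha0 hτ) hp1 hp2
  have key := profile_ineq hh hconc hanti hnn ha0 n
  set Ia := ∫ t in (0 : ℝ)..h, a t ^ n with hIa
  set Ib := ∫ τ in (0 : ℝ)..(1 / h), polarProfile a h τ ^ n with hIb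
  have hIa0 : 0 ≤ Ia :=
    intervalIntegral.integral_nonneg hh.le fun t ht => pow_nonneg (hnn t ht) _
  have hle : 4 / ((n : ℝ) + 1) ≤ 2 * Ia * (2 * Ib) := by
    have e : 4 / ((n : ℝ) + 1) = 4 * (1 / ((n : ℝ) + 1)) := by ring
    rw [e]
    linarith
  rw [vK, vP]
  calc ENNReal.ofReal (4 / ((n : ℝ) + 1)) * (volume A * volume (polarSet A))
      ≤ ENNReal.ofReal (2 * Ia * (2 * Ib)) * (volume A * volume (polarSet A)) := by
        gcongr
    _ = ENNReal.ofReal (2 * Ia) * volume A * (ENNReal.ofReal (2 * Ib) * volume (polarSet A)) := by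
        rw [ENNReal.ofReal_mul (by positivity)]
        ring

end Vale.Agent.Lib.P248.H20
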