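import Mathlib
import Vale.Agent.Lib.P248.helper25.ABDefs
import Vale.Agent.Lib.P248.helper55.ABCone
import Vale.Agent.Lib.P248.helper23.SecDual
import Vale.Agent.Lib.P248.helper77.VolPos
import Vale.Agent.Lib.P248.helper37.LAB

/-!
# P248 (helper20): the volume product inequality for anti-blocking bodies

`sr` : for a closed convex anti-blocking set `A` in `R^n` which contains a cube `[0, ε]^n` and is
bounded, `1 / n! ≤ |A| |A*|`, where `A* = {y ≥ 0 | ⟨x, y⟩ ≤ 1 for all x ∈ A}`.

The proof is the induction on the dimension which uses the cone inequality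
`∑ i, x i |A ∩ {p i = 0}| ≤ (n + 1) |A|` (file `helper55/ABCone`) twice: once for `A`, which shows
that the vector `v i = |A ∩ {p i = 0}| / ((n + 1) |A|)` lies in `A*`, and once for `A*` at `v`.
-/

namespace Vale.Agent.Lib.P248.H20SR

open MeasureTheory Set
open Vale.Agent.Lib.P248.H25
open scoped ENNReal

/-- The anti-blocking dual of a good set is good. -/
theorem good_dual {n : ℕ} {A : Set (Fin n → ℝ)} {ε R : ℝ} (h : Good A ε R) :
    Good (dual A) (1 / (n * |R| + 1)) (1 / ε) := by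
  have hpos : (0 : ℝ) < n * |R| + 1 := by positivity
  have hε := h.eps_pos
  refine ⟨?_, ?_, ⟨fun y hy => hy.1, ?_⟩, by positivity, ?_, ?_⟩
  · have e : dual A = (⋂ i, {y : Fin n → ℝ | 0 ≤ y i}) ∩
        ⋂ x ∈ A, {y : Fin n → ℝ | ∑ i, x i * y i ≤ 1} := by
      ext y; simp [dual]
    rw [e]
    refine IsClosed.inter
      (isClosed_iInter fun i => isClosed_le continuous_const (continuous_apply i))
      (isClosed_biInter fun x _ => isClosed_le ?_ continuous_const)
    exact continuous_finsetSum _ fun i _ => continuous_const.mul (continuous_apply i)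
  · intro y hy y' hy' a b ha hb hab
    refine ⟨fun i => ?_, fun x hx => ?_⟩
    · simp only [Pi.add_apply, Pi.smul_apply, smul_eq_mul]
      exact add_nonneg (mul_nonneg ha (hy.1 i)) (mul_nonneg hb (hy'.1 i))
    · have e : ∑ i, x i * (a • y + b • y') i
          = a * ∑ i, x i * y i + b * ∑ i, x i * y' i := by
        rw [Finset.mul_sum, Finset.mul_sum, ← Finset.sum_add_distrib]
        apply Finset.sum_congr rfl
        intro i _
        simp only [Pi.add_apply, Pi.smul_apply, smul_eq_mul]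
        ring
      rw [e]
      have h1 := hy.2 x hx
      have h2 := hy'.2 x hx
      nlinarith
  · intro y hy w hw
    refine ⟨fun i => (hw i).1, fun x hx => le_trans ?_ (hy.2 x hx)⟩
    apply Finset.sum_le_sum
    intro i _
    exact mul_le_mul_of_nonneg_left (hw i).2 (h.ab.1 x hx i)
  · intro y hy
    refine ⟨fun i => (hy i).1, fun x hx => ?_⟩
    have h1 : ∀ i ∈ (Finset.univ : Finset (Fin n)), x i * y i ≤ |R| * (1 / (n * |R| + 1)) := by
      intro i _
      exact mul_le_mul ((h.bdd x hx i).trans (le_abs_self R)) (hy i).2 (hy i).1 (abs_nonneg R)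
    have h2 := Finset.sum_le_sum h1
    rw [Finset.sum_const, Finset.card_univ, Fintype.card_fin, nsmul_eq_mul] at h2
    refine h2.trans ?_
    rw [mul_one_div, ← mul_div_assoc, div_le_one hpos]
    linarith
  · intro y hy i
    have hx : (fun j => if j = i then ε else 0 : Fin n → ℝ) ∈ A := by
      apply h.cube
      intro j
      by_cases hj : j = i <;> simp [hj, hε.le]
    have h1 := hy.2 _ hx
    have e : ∑ j, (if j = i then ε else 0) * y j = ε * y i := by
      simp [ite_mul]
    rw [e] at h1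
    rw [le_div_iff₀ hε]
    linarith

/-- The coordinate sections of a good set are good. -/
theorem good_sec {n : ℕ} {A : Set (Fin (n + 1) → ℝ)} {ε R : ℝ} (h : Good A ε R)
    (i : Fin (n + 1)) : Good (sec A i) ε R := by
  refine ⟨H55.isClosed_abSec h.closed i, ?_, ⟨?_, ?_⟩, h.eps_pos, ?_, ?_⟩
  · intro z hz z' hz' a b ha hb hab
    have e : (i.insertNth (0 : ℝ) (a • z + b • z') : Fin (n + 1) → ℝ)
        = a • (i.insertNth (0 : ℝ) z : Fin (n + 1) → ℝ)
          + b • (i.insertNth (0 : ℝ) z' : Fin (n + 1) → ℝ) := by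
      funext j
      refine Fin.succAboveCases i ?_ (fun k => ?_) j
      · simp
      · simp
    show (i.insertNth (0 : ℝ) (a • z + b • z') : Fin (n + 1) → ℝ) ∈ A
    rw [e]
    exact h.convex hz hz' ha hb hab
  · intro z hz k
    have h1 := h.ab.1 _ hz (i.succAbove k)
    rwa [Fin.insertNth_apply_succAbove] at h1
  · intro z hz y hy
    refine h.ab.2 _ hz _ ?_
    intro j
    refine Fin.succAboveCases i ?_ (fun k => ?_) j
    · simp
    · simpa using hy k
  · intro z hz
    apply h.cube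
    intro j
    refine Fin.succAboveCases i ?_ (fun k => ?_) j
    · simp [h.eps_pos.le]
    · simpa using hz k
  · intro z hz k
    have h1 := h.bdd _ hz (i.succAbove k)
    rwa [Fin.insertNth_apply_succAbove] at h1

/-- The cone inequality in real form. -/
theorem cone_real {n : ℕ} {A : Set (Fin (n + 1) → ℝ)} {ε R : ℝ} (h : Good A ε R)
    {x : Fin (n + 1) → ℝ} (hx : x ∈ A) :
    ∑ i, x i * (volume (sec A i)).toReal ≤ ((n : ℝ) + 1) * (volume A).toReal := by
  have hfin : volume A ≠ ⊤ := (H77.vol_lt_top h).ne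
  have hc := H55.ab_cone_ineq n A h.closed h.convex h.ab.1
    (fun p hp q hq0 hqp => h.ab.2 p hp q fun i => ⟨hq0 i, hqp i⟩) hfin x hx
  change ∑ i, ENNReal.ofReal (x i) * volume (sec A i) ≤ ((n : ℝ≥0∞) + 1) * volume A at hc
  have hsec : ∀ i, volume (sec A i) ≠ ⊤ := fun i => (H77.vol_lt_top (good_sec h i)).ne
  have hR : ((n : ℝ≥0∞) + 1) * volume A ≠ ⊤ := ENNReal.mul_ne_top (by simp) hfin
  have h1 := ENNReal.toReal_mono hR hc
  rw [ENNReal.toReal_sum (fun i _ => ENNReal.mul_ne_top ENNReal.ofReal_ne_top (hsec i)),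
    ENNReal.toReal_mul] at h1
  have e : ∀ i, (ENNReal.ofReal (x i) * volume (sec A i)).toReal
      = x i * (volume (sec A i)).toReal := by
    intro i
    rw [ENNReal.toReal_mul, ENNReal.toReal_ofReal (h.ab.1 x hx i)]
  have e2 : ((n : ℝ≥0∞) + 1).toReal = (n : ℝ) + 1 := by
    rw [ENNReal.toReal_add (by simp) (by simp)]; simp
  simp only [e] at h1
  rw [e2] at h1
  exact h1

/-- Dimension zero. -/
theorem sr_zero (A : Set (Fin 0 → ℝ)) (ε R : ℝ) (h : Good A ε R) :
    ENNReal.ofReal (1 / (Nat.factorial 0 : ℝ)) ≤ volume A * volume (dual A) := by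
  have hD : dual A = Set.univ := by
    ext y
    simp only [Set.mem_univ, iff_true]
    exact ⟨fun i => i.elim0, fun x _ => by simp⟩
  have hA : A = Set.univ := by
    ext x
    simp only [Set.mem_univ, iff_true]
    exact h.cube x (fun i => i.elim0)
  have hu : volume (Set.univ : Set (Fin 0 → ℝ)) = 1 := by
    rw [volume_pi, Measure.pi_univ]
    simp
  rw [hD, hA, hu]
  simp

/-- The induction step. -/
theorem sr_step {n : ℕ}
    (ih : ∀ (A : Set (Fin n → ℝ)) (ε R : ℝ), Good A ε R →
      ENNReal.ofReal (1 / (n.factorial : ℝ)) ≤ volume A * volume (dual A))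
    (A : Set (Fin (n + 1) → ℝ)) (ε R : ℝ) (h : Good A ε R) :
    ENNReal.ofReal (1 / ((n + 1).factorial : ℝ)) ≤ volume A * volume (dual A) := by
  have hD := good_dual h
  have hVfin : volume A ≠ ⊤ := (H77.vol_lt_top h).ne
  have hWfin : volume (dual A) ≠ ⊤ := (H77.vol_lt_top hD).ne
  have hVpos : 0 < (volume A).toReal := ENNReal.toReal_pos (H77.vol_pos h).ne' hVfin
  obtain ⟨V, hV⟩ : ∃ V : ℝ, V = (volume A).toReal := ⟨_, rfl⟩
  obtain ⟨W, hW⟩ : ∃ W : ℝ, W = (volume (dual A)).toReal := ⟨_, rfl⟩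
  obtain ⟨a, ha⟩ : ∃ a : Fin (n + 1) → ℝ, a = fun i => (volume (sec A i)).toReal := ⟨_, rfl⟩
  obtain ⟨b, hb⟩ : ∃ b : Fin (n + 1) → ℝ, b = fun i => (volume (sec (dual A) i)).toReal :=
    ⟨_, rfl⟩
  rw [← hV] at hVpos
  have hW0 : 0 ≤ W := by rw [hW]; exact ENNReal.toReal_nonneg
  have ha0 : ∀ i, 0 ≤ a i := fun i => by rw [ha]; exact ENNReal.toReal_nonneg
  have hab : ∀ i, 1 / (n.factorial : ℝ) ≤ a i * b i := by
    intro i
    have hs := good_sec h i
    have h1 := ih (sec A i) ε R hs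
    rw [← H23.sec_dual h.ab i] at h1
    have hf1 : volume (sec A i) ≠ ⊤ := (H77.vol_lt_top hs).ne
    have hf2 : volume (sec (dual A) i) ≠ ⊤ := (H77.vol_lt_top (good_sec hD i)).ne
    have h2 := ENNReal.toReal_mono (ENNReal.mul_ne_top hf1 hf2) h1
    rw [ENNReal.toReal_mul, ENNReal.toReal_ofReal (by positivity)] at h2
    rw [ha, hb]
    exact h2
  have hden : 0 < ((n : ℝ) + 1) * V := by positivity
  obtain ⟨v, hv⟩ : ∃ v : Fin (n + 1) → ℝ, v = fun i => a i / (((n : ℝ) + 1) * V) := ⟨_, rfl⟩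
  have hvi : ∀ i, v i = a i / (((n : ℝ) + 1) * V) := fun i => by rw [hv]
  have hvD : v ∈ dual A := by
    refine ⟨fun i => by rw [hvi]; exact div_nonneg (ha0 i) hden.le, fun x hx => ?_⟩
    have h1 := cone_real h hx
    rw [← hV] at h1
    have e : ∑ i, x i * v i = (∑ i, x i * a i) / (((n : ℝ) + 1) * V) := by
      rw [Finset.sum_div]
      apply Finset.sum_congr rfl
      intro i _
      rw [hvi]; ring
    rw [e, div_le_one hden, ha]
    exact h1
  have h2 := cone_real hD hvD
  rw [← hW] at h2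
  have h3 : ∑ i, a i * b i ≤ ((n : ℝ) + 1) ^ 2 * V * W := by
    have e : ∑ i, v i * (volume (sec (dual A) i)).toReal
        = (∑ i, a i * b i) / (((n : ℝ) + 1) * V) := by
      rw [Finset.sum_div]
      apply Finset.sum_congr rfl
      intro i _
      rw [hvi, hb]; ring
    rw [e, div_le_iff₀ hden] at h2
    calc ∑ i, a i * b i ≤ ((n : ℝ) + 1) * W * (((n : ℝ) + 1) * V) := h2
      _ = ((n : ℝ) + 1) ^ 2 * V * W := by ring
  have h4 : ((n : ℝ) + 1) * (1 / (n.factorial : ℝ)) ≤ ∑ i, a i * b i := by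
    have h5 := Finset.sum_le_sum (fun i (_ : i ∈ (Finset.univ : Finset (Fin (n + 1)))) => hab i)
    rw [Finset.sum_const, Finset.card_univ, Fintype.card_fin, nsmul_eq_mul] at h5
    push_cast at h5
    exact h5
  have h5 : 1 / ((n + 1).factorial : ℝ) ≤ V * W := by
    rw [Nat.factorial_succ]
    push_cast
    have hf : (0 : ℝ) < n.factorial := by positivity
    have hn1 : (0 : ℝ) < (n : ℝ) + 1 := by positivity
    rw [div_le_iff₀ (by positivity)]
    have h6 : ((n : ℝ) + 1) * (1 / (n.factorial : ℝ)) ≤ ((n : ℝ) + 1) ^ 2 * V * W := h4.trans h3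
    rw [mul_one_div, div_le_iff₀ hf] at h6
    have h7 : ((n : ℝ) + 1) * 1 ≤ ((n : ℝ) + 1) * (V * W * (((n : ℝ) + 1) * n.factorial)) := by
      rw [mul_one]
      calc (n : ℝ) + 1 ≤ ((n : ℝ) + 1) ^ 2 * V * W * n.factorial := h6
        _ = ((n : ℝ) + 1) * (V * W * (((n : ℝ) + 1) * n.factorial)) := by ring
    exact le_of_mul_le_mul_left h7 hn1
  calc ENNReal.ofReal (1 / ((n + 1).factorial : ℝ)) ≤ ENNReal.ofReal (V * W) :=
        ENNReal.ofReal_le_ofReal h5
    _ = volume A * volume (dual A) := by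
        rw [ENNReal.ofReal_mul hVpos.le, hV, hW, ENNReal.ofReal_toReal hVfin,
          ENNReal.ofReal_toReal hWfin]

/-- The volume product inequality for anti-blocking bodies. -/
theorem sr (n : ℕ) : ∀ (A : Set (Fin n → ℝ)) (ε R : ℝ), Good A ε R →
    ENNReal.ofReal (1 / (n.factorial : ℝ)) ≤ volume A * volume (dual A) := by
  induction n with
  | zero => exact sr_zero
  | succ n ih => exact sr_step ih

/-- The same, in the form used by the reduction of locally anti-blocking bodies. -/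
theorem sr_statement (n : ℕ) : H37.SRStatement n := by
  intro A hcl hconv hnn hdown hcube hbdd
  obtain ⟨ε, hε, hcube⟩ := hcube
  obtain ⟨R, hR⟩ := hbdd
  exact sr n A ε R ⟨hcl, hconv, ⟨hnn, hdown⟩, hε, hcube, hR⟩

/-- The volume product inequality for locally anti-blocking convex bodies. -/
theorem lab_euclid (n : ℕ) (K : Set (EuclideanSpace ℝ (Fin n))) (hconv : Convex ℝ K)
    (hcomp : IsCompact K) (h0 : (0 : EuclideanSpace ℝ (Fin n)) ∈ interior K)
    (hLAB : ∀ x ∈ K, ∀ y : EuclideanSpace ℝ (Fin n),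
      (∀ i, 0 ≤ x i * y i ∧ |y i| ≤ |x i|) → y ∈ K) :
    ENNReal.ofReal (4 ^ n / (n.factorial : ℝ)) ≤
      volume K * volume {y : EuclideanSpace ℝ (Fin n) | ∀ x ∈ K, inner ℝ x y ≤ 1} :=
  H37.lab_euclid (sr_statement n) hconv hcomp h0 hLAB

end Vale.Agent.Lib.P248.H20SR
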